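import Vale.Agent.P106.U.Cell
import Vale.Agent.P127.Stk.LibDom

/-!
# P106 / U : chain fact for the nominal positions (helper84)

`cha` : for `j + 1 ≤ i'` the nominal position `A j b i'` is determined by `A (j+1) b i'` and the letter `T i'`
up to a number of possibilities which depends on the constant `K` only:
`H(A j | A (j+1), T i') ≤ 2 log (2 ⌈118 K^5⌉ + 3)`.
-/

set_option autoImplicit false

namespace Vale.Agent.P106.U.H84

open Finset Vale.Agent.P127 Vale.Agent.P127.Stk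
open Vale.Agent.P127.U.CellD (q2 rd q2_pos q2_add q2_le rd_le lt_rd rd_err rd_mono rd_sub fl1_fl1
  q2_mul_pow div_pow_eq)
open Vale.Agent.P106.U.Cell

/-! ### preliminaries -/

lemma mulb {x y A B : ℝ} (hx : |x| ≤ A) (hy : |y| ≤ B) : |x * y| ≤ A * B := by
  rw [abs_mul]; exact mul_le_mul hx hy (abs_nonneg _) ((abs_nonneg _).trans hx)

lemma addb {x y A B : ℝ} (hx : |x| ≤ A) (hy : |y| ≤ B) : |x + y| ≤ A + B :=
  (abs_add_le _ _).trans (add_le_add hx hy)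

lemma subb {x y A B : ℝ} (hx : |x| ≤ A) (hy : |y| ≤ B) : |x - y| ≤ A + B :=
  (abs_sub _ _).trans (add_le_add hx hy)

/-- division of a bound -/
lemma divb {x t b k : ℝ} (h : |x| * t ≤ k) {y : ℝ} (hb : 0 ≤ b) (hy : |y| ≤ t * b) :
    |x * y| ≤ k * b := by
  rw [abs_mul]
  calc |x| * |y| ≤ |x| * (t * b) := by gcongr
    _ = (|x| * t) * b := by ring
    _ ≤ k * b := by gcongr

lemma cancelb {K c x B : ℝ} (hK : 0 ≤ K) (hc : 1 ≤ K * c) (h : |x * c| ≤ B) : |x| ≤ K * B := by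
  have hc0 : 0 < c := by
    by_contra hcon
    push Not at hcon
    have : K * c ≤ 0 := mul_nonpos_of_nonneg_of_nonpos hK hcon
    linarith
  rw [abs_mul, abs_of_pos hc0] at h
  calc |x| = |x| * 1 := by ring
    _ ≤ |x| * (K * c) := by gcongr
    _ = K * (|x| * c) := by ring
    _ ≤ K * B := by gcongr

lemma fl1_close {n : ℕ} {x y : ℝ} (h : fl1 n x = fl1 n y) : |x - y| ≤ q2 n := by
  have e : rd n x = rd n y := by unfold rd; rw [h]
  have h1 := rd_le n x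
  have h2 := lt_rd n x
  have h3 := rd_le n y
  have h4 := lt_rd n y
  rw [abs_le]
  constructor <;> linarith

lemma rd_eq {n : ℕ} {x y : ℝ} (h : fl1 n x = fl1 n y) : rd n x = rd n y := by unfold rd; rw [h]

/-- close numbers have close floors -/
lemma fl1_range {n M : ℕ} {x y : ℝ} (h : |x - y| ≤ M * q2 n) :
    |fl1 n x - fl1 n y| ≤ (M : ℤ) + 1 := by
  have h1 := q2_mul_pow n
  have hp : (0 : ℝ) < 2 ^ n := by positivity
  have h2 : |(2 : ℝ) ^ n * x - (2 : ℝ) ^ n * y| ≤ M := by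
    rw [← mul_sub, abs_mul, abs_of_pos hp]
    calc (2 : ℝ) ^ n * |x - y| ≤ 2 ^ n * (M * q2 n) := by gcongr
      _ = M * (2 ^ n * q2 n) := by ring
      _ = M := by rw [h1, mul_one]
  unfold fl1
  have a1 := Int.floor_le ((2 : ℝ) ^ n * x)
  have a2 := Int.lt_floor_add_one ((2 : ℝ) ^ n * x)
  have a3 := Int.floor_le ((2 : ℝ) ^ n * y)
  have a4 := Int.lt_floor_add_one ((2 : ℝ) ^ n * y)
  rw [abs_le] at h2
  have b1 : ((⌊(2 : ℝ) ^ n * x⌋ - ⌊(2 : ℝ) ^ n * y⌋ : ℤ) : ℝ) < ((M + 1 : ℤ) : ℝ) := by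
    push_cast; linarith
  have b2 : ((-((M : ℤ) + 1) : ℤ) : ℝ) < ((⌊(2 : ℝ) ^ n * x⌋ - ⌊(2 : ℝ) ^ n * y⌋ : ℤ) : ℝ) := by
    push_cast; linarith
  have c1 := Int.cast_lt.1 b1
  have c2 := Int.cast_lt.1 b2
  rw [abs_le]
  exact ⟨c2.le, c1.le⟩

/-! ### the algebra of the slopes -/

/-- the slope of the second slab -/
lemma slope1 {K : ℝ} (hK : 1 ≤ K) {k1 a1 g1 v v' w w' X X' N N' p1 p1' : ℝ}
    {b0 bm t1 m2 bs R1 : ℝ} (hb0 : 0 < b0)
    (hv : |v' - v| ≤ b0) (hw : |w' - w| ≤ bm) (hX : |X' - X| ≤ t1 * b0) (hN : |N' - N| ≤ t1 * b0)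
    (hbm : b0 ≤ bm) (hbm2 : bm * m2 ≤ b0) (hbs : b0 ≤ bs) (hR1s : R1 ≤ bs) (hm2 : 0 ≤ m2)
    (hp1' : |p1'| ≤ 2 * m2) (hc1 : 1 ≤ K * (g1 - k1 * w - a1 * N))
    (hk1 : |k1| ≤ 2 * K) (ha1 : |a1| * t1 ≤ K)
    (hph : |(p1' * (g1 - k1 * w' - a1 * N') - k1 * v' - a1 * X') -
      (p1 * (g1 - k1 * w - a1 * N) - k1 * v - a1 * X)| ≤ R1) :
    |p1' - p1| ≤ 10 * K ^ 2 * bs := by
  have hK0 : 0 < K := by linarith
  have haX : |a1 * (X' - X)| ≤ K * b0 := divb ha1 hb0.le hX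
  have haN : |a1 * (N' - N)| ≤ K * b0 := divb ha1 hb0.le hN
  have hkv : |k1 * (v' - v)| ≤ 2 * K * b0 := mulb hk1 hv
  have hkw : |k1 * (w' - w)| ≤ 2 * K * bm := mulb hk1 hw
  have hcc : |k1 * (w' - w) + a1 * (N' - N)| ≤ 3 * K * bm := by
    refine (addb hkw haN).trans ?_
    have h3 : K * b0 ≤ K * bm := by gcongr
    linarith
  have hpc : |p1' * (k1 * (w' - w) + a1 * (N' - N))| ≤ 6 * K * b0 := by
    calc _ ≤ 2 * m2 * (3 * K * bm) := mulb hp1' hcc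
      _ = 6 * K * (bm * m2) := by ring
      _ ≤ 6 * K * b0 := by gcongr
  have e1 : (p1' - p1) * (g1 - k1 * w - a1 * N) =
      ((p1' * (g1 - k1 * w' - a1 * N') - k1 * v' - a1 * X') -
      (p1 * (g1 - k1 * w - a1 * N) - k1 * v - a1 * X)) +
        k1 * (v' - v) + a1 * (X' - X) + p1' * (k1 * (w' - w) + a1 * (N' - N)) := by ring
  have hdp : |(p1' - p1) * (g1 - k1 * w - a1 * N)| ≤ 10 * K * bs := by
    rw [e1]
    refine (addb (addb (addb hph hkv) haX) hpc).trans ?_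
    have h4 : K * b0 ≤ K * bs := by gcongr
    have h5 : bs ≤ K * bs := by
      have : 0 < bs := lt_of_lt_of_le hb0 hbs
      calc bs = 1 * bs := by ring
        _ ≤ K * bs := by gcongr
    linarith
  calc |p1' - p1| ≤ K * (10 * K * bs) := cancelb hK0.le hc1 hdp
    _ = _ := by ring

/-- difference of the slopes of two slabs: if the second slope is known, so is the first -/
lemma slope_real {K : ℝ} (hK : 1 ≤ K) {kj k1 aj a1 gj g1 v v' w w' X X' N N' q q' p1 p1' : ℝ}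
    {b0 bm t1 r m2 bs R R1 f : ℝ}
    (hb0 : 0 < b0) (hr : 0 < r)
    (hv : |v' - v| ≤ b0) (hw : |w' - w| ≤ bm) (hX : |X' - X| ≤ t1 * b0) (hN : |N' - N| ≤ t1 * b0)
    (hbm : b0 ≤ bm) (hbm2 : bm * m2 ≤ b0) (hbs : b0 ≤ bs) (hRs : r * bs = R) (hRb : r * b0 ≤ R)
    (hR1 : R1 ≤ R) (hR1s : R1 ≤ bs) (hf : f ≤ R) (hfs : f ≤ bs)
    (hq' : |q'| ≤ 2 * m2) (hp1' : |p1'| ≤ 2 * m2)
    (hqp : |p1 - q| ≤ f) (hqp' : |p1' - q'| ≤ f)
    (hc1 : 1 ≤ K * (g1 - k1 * w - a1 * N)) (hc1K : |g1 - k1 * w - a1 * N| ≤ K)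
    (hc1K' : |g1 - k1 * w' - a1 * N'| ≤ K)
    (hk1 : |k1| ≤ 2 * K) (ha1 : |a1| * t1 ≤ K)
    (hdk : |k1 - kj| ≤ 2 * K * r) (hda : |a1 - aj| * t1 ≤ K * r)
    (hdc : |(g1 - k1 * w - a1 * N) - (gj - kj * w - aj * N)| ≤ K * r)
    (hph : |(p1' * (g1 - k1 * w' - a1 * N') - k1 * v' - a1 * X') -
      (p1 * (g1 - k1 * w - a1 * N) - k1 * v - a1 * X)| ≤ R1) :
    |(q' * (gj - kj * w' - aj * N') - kj * v' - aj * X') -
      (q * (gj - kj * w - aj * N) - kj * v - aj * X)| ≤ 24 * K ^ 3 * R := by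
  have hK0 : 0 < K := by linarith
  have hm2 : 0 ≤ m2 := by have := abs_nonneg q'; linarith
  have hR0 : 0 < R := by rw [← hRs]; exact mul_pos hr (lt_of_lt_of_le hb0 hbs)
  have hbs0 : 0 < bs := lt_of_lt_of_le hb0 hbs
  have hdp1 := slope1 hK hb0 hv hw hX hN hbm hbm2 hbs hR1s hm2 hp1' hc1 hk1 ha1 hph
  have hdaX : |(a1 - aj) * (X' - X)| ≤ K * r * b0 := divb hda hb0.le hX
  have hdaN : |(a1 - aj) * (N' - N)| ≤ K * r * b0 := divb hda hb0.le hN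
  have hdkv : |(k1 - kj) * (v' - v)| ≤ 2 * K * r * b0 := mulb hdk hv
  have hdkw : |(k1 - kj) * (w' - w)| ≤ 2 * K * r * bm := mulb hdk hw
  have K1 : (1 : ℝ) ≤ K ^ 2 := one_le_pow₀ hK
  have K2 : K ≤ K ^ 3 := le_self_pow₀ hK (by norm_num)
  have K3 : (1 : ℝ) ≤ K ^ 3 := one_le_pow₀ hK
  have hee : |(k1 - kj) * (w' - w) + (a1 - aj) * (N' - N)| ≤ 3 * K * r * bm := by
    refine (addb hdkw hdaN).trans ?_
    have h3 : K * r * b0 ≤ K * r * bm := by gcongr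
    linarith
  have hdq : |q' - q| ≤ 12 * K ^ 2 * bs := by
    have e1 : q' - q = (p1' - p1) - (p1' - q') + (p1 - q) := by ring
    rw [e1]
    refine (addb (subb hdp1 hqp') hqp).trans ?_
    have h4 : bs ≤ K ^ 2 * bs := by
      calc bs = 1 * bs := by ring
        _ ≤ K ^ 2 * bs := by gcongr
    linarith
  have s1 : |q' * ((k1 - kj) * (w' - w) + (a1 - aj) * (N' - N))| ≤ 6 * K * R := by
    calc _ ≤ 2 * m2 * (3 * K * r * bm) := mulb hq' hee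
      _ = 6 * K * (r * (bm * m2)) := by ring
      _ ≤ 6 * K * (r * b0) := by gcongr
      _ ≤ 6 * K * R := by gcongr
  have s2 : |(q' - q) * ((g1 - k1 * w - a1 * N) - (gj - kj * w - aj * N))| ≤ 12 * K ^ 3 * R := by
    calc _ ≤ 12 * K ^ 2 * bs * (K * r) := mulb hdq hdc
      _ = 12 * K ^ 3 * (r * bs) := by ring
      _ = 12 * K ^ 3 * R := by rw [hRs]
  have s3 : |(p1' - q') * (g1 - k1 * w' - a1 * N')| ≤ K * R := by
    calc _ ≤ f * K := mulb hqp' hc1K'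
      _ ≤ R * K := by gcongr
      _ = K * R := by ring
  have s4 : |(p1 - q) * (g1 - k1 * w - a1 * N)| ≤ K * R := by
    calc _ ≤ f * K := mulb hqp hc1K
      _ ≤ R * K := by gcongr
      _ = K * R := by ring
  have e1 : (q' * (gj - kj * w' - aj * N') - kj * v' - aj * X') -
      (q * (gj - kj * w - aj * N) - kj * v - aj * X) =
      ((p1' * (g1 - k1 * w' - a1 * N') - k1 * v' - a1 * X') -
      (p1 * (g1 - k1 * w - a1 * N) - k1 * v - a1 * X)) +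
      (k1 - kj) * (v' - v) + (a1 - aj) * (X' - X) - (p1' - q') * (g1 - k1 * w' - a1 * N')
      + (p1 - q) * (g1 - k1 * w - a1 * N)
      + q' * ((k1 - kj) * (w' - w) + (a1 - aj) * (N' - N))
      - (q' - q) * ((g1 - k1 * w - a1 * N) - (gj - kj * w - aj * N)) := by ring
  rw [e1]
  refine (subb (addb (addb (subb (addb (addb hph hdkv) hdaX) s3) s4) s1) s2).trans ?_
  have h7 : K * r * b0 ≤ K * R := by
    calc K * r * b0 = K * (r * b0) := by ring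
      _ ≤ K * R := by gcongr
  have h8 : R ≤ K ^ 3 * R := by
    calc R = 1 * R := by ring
      _ ≤ K ^ 3 * R := by gcongr
  have h9 : K * R ≤ K ^ 3 * R := by gcongr
  linarith

/-! ### the algebra of the values -/

lemma half_sq {dX dN u : ℝ} (hX : |dX| ≤ u) (hN : |dN| ≤ u) :
    |(dX ^ 2 + dN ^ 2) / 2| ≤ u * u := by
  have h1 : dX ^ 2 ≤ u ^ 2 := by rw [← sq_abs]; gcongr
  have h2 : dN ^ 2 ≤ u ^ 2 := by rw [← sq_abs dN]; gcongr
  rw [abs_of_nonneg (by positivity)]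
  linarith

/-- refined bound of `dN` -/
lemma dN_real {K : ℝ} (hK : 1 ≤ K) {k1 a1 c1 p1 εG dX dN dz dv dw gG : ℝ}
    {b0 bm t1 m2 R1 : ℝ} (hb0 : 0 < b0) (ht1 : 0 < t1) (hm2 : 0 ≤ m2)
    (hX : |dX| ≤ t1 * b0) (hN : |dN| ≤ t1 * b0) (hv : |dv| ≤ b0) (hw : |dw| ≤ bm)
    (hz : |dz + dv * dX + dw * dN| ≤ t1 * b0 * b0) (hbm3 : bm ≤ m2) (hRm : R1 ≤ m2)
    (hp1 : |p1| ≤ 2 * m2) (hc1 : 1 ≤ K * c1) (hc1K : |c1| ≤ K)
    (hk1 : |k1| ≤ 2 * K) (ha1 : |a1| * t1 ≤ K) (hεG : |εG| ≤ R1)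
    (hG : gG = c1 * dN - (p1 * c1 + εG) * dX - k1 * dz - a1 * ((dX ^ 2 + dN ^ 2) / 2))
    (hGs : |gG| ≤ t1 * b0 * R1) :
    |dN| ≤ 13 * K ^ 2 * (t1 * b0 * (m2 + b0)) := by
  have hK0 : 0 < K := by linarith
  have hz0 : |dz| ≤ 2 * (t1 * b0 * b0) + t1 * b0 * bm := by
    have e : dz = (dz + dv * dX + dw * dN) - dv * dX - dw * dN := by ring
    rw [e]
    refine (subb (subb hz (mulb hv hX)) (mulb hw hN)).trans (le_of_eq ?_)
    ring
  have haP : |a1 * ((dX ^ 2 + dN ^ 2) / 2)| ≤ K * (b0 * (t1 * b0)) := by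
    refine divb ha1 (by positivity) ((half_sq hX hN).trans (le_of_eq ?_))
    ring
  have e1 : dN * c1 = gG + (p1 * c1 + εG) * dX + k1 * dz + a1 * ((dX ^ 2 + dN ^ 2) / 2) := by
    rw [hG]; ring
  have h2 : |(p1 * c1 + εG) * dX| ≤ (2 * m2 * K + m2) * (t1 * b0) :=
    mulb (addb (mulb hp1 hc1K) (hεG.trans hRm)) hX
  have h3 : |k1 * dz| ≤ 2 * K * (2 * (t1 * b0 * b0) + t1 * b0 * bm) := mulb hk1 hz0
  have h5 : t1 * b0 * R1 ≤ t1 * b0 * m2 := by gcongr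
  have h6 : K * (t1 * b0 * bm) ≤ K * (t1 * b0 * m2) := by gcongr
  have h7 : t1 * b0 * m2 ≤ K * (t1 * b0 * m2) := by
    calc t1 * b0 * m2 = 1 * (t1 * b0 * m2) := by ring
      _ ≤ K * (t1 * b0 * m2) := by gcongr
  have hK8 : 0 ≤ K * (t1 * b0 * b0) := by positivity
  have hKm : 0 ≤ K * (t1 * b0 * m2) := by positivity
  have h10 : |dN * c1| ≤ 13 * K * (t1 * b0 * (m2 + b0)) := by
    rw [e1]
    refine (addb (addb (addb hGs h2) h3) haP).trans ?_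
    linarith
  calc |dN| ≤ K * (13 * K * (t1 * b0 * (m2 + b0))) := cancelb hK0.le hc1 h10
    _ = _ := by ring

/-- refined bound of `dz` -/
lemma dz_real {K : ℝ} (hK : 1 ≤ K) {dX dN dz dv dw : ℝ}
    {b0 bm t1 m2 : ℝ} (hb0 : 0 < b0) (ht1 : 0 < t1)
    (hX : |dX| ≤ t1 * b0) (hv : |dv| ≤ b0) (hw : |dw| ≤ bm)
    (hz : |dz + dv * dX + dw * dN| ≤ t1 * b0 * b0) (hbm2 : bm * m2 ≤ b0) (hbm1 : bm ≤ 1)
    (hN : |dN| ≤ 13 * K ^ 2 * (t1 * b0 * (m2 + b0))) :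
    |dz| ≤ 28 * K ^ 2 * (t1 * b0 * b0) := by
  have hbm0 : 0 ≤ bm := (abs_nonneg _).trans hw
  have h3 : |dw * dN| ≤ 26 * K ^ 2 * (t1 * b0 * b0) := by
    calc |dw * dN| ≤ bm * (13 * K ^ 2 * (t1 * b0 * (m2 + b0))) := mulb hw hN
      _ = 13 * K ^ 2 * (t1 * b0 * (bm * m2 + bm * b0)) := by ring
      _ ≤ 13 * K ^ 2 * (t1 * b0 * (b0 + 1 * b0)) := by gcongr
      _ = _ := by ring
  have e : dz = (dz + dv * dX + dw * dN) - dv * dX - dw * dN := by ring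
  rw [e]
  refine (subb (subb hz (mulb hv hX)) h3).trans ?_
  have h8 : 0 ≤ t1 * b0 * b0 := by positivity
  have K1 : (1 : ℝ) ≤ K ^ 2 := one_le_pow₀ hK
  have h9 : t1 * b0 * b0 ≤ K ^ 2 * (t1 * b0 * b0) := by
    calc t1 * b0 * b0 = 1 * (t1 * b0 * b0) := by ring
      _ ≤ K ^ 2 * (t1 * b0 * b0) := by gcongr
  linarith

/-- the value of the first functional is determined by the value of the second -/
lemma value_real {K : ℝ} (hK : 1 ≤ K) {kj k1 aj a1 cj c1 q p1 εF εG dX dN dz gF gG : ℝ}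
    {b0 t1 tj r R R1 f : ℝ}
    (hb0 : 0 < b0) (hr : 0 < r) (ht1 : 0 < t1) (htj : t1 ≤ tj) (hR : 0 < R)
    (hX : |dX| ≤ t1 * b0) (hN : |dN| ≤ t1 * b0) (hz : |dz| ≤ 28 * K ^ 2 * (t1 * b0 * b0))
    (hRb : r * b0 ≤ R) (hR1 : R1 ≤ R) (hf : f ≤ R) (hqp : |p1 - q| ≤ f)
    (hcj : |cj| ≤ K) (hc1 : 1 ≤ K * c1) (hc1K : |c1| ≤ K)
    (hkj : |kj| ≤ 2 * K) (haj : |aj| * tj ≤ K)
    (hdk : |k1 - kj| ≤ 2 * K * r) (hda : |a1 - aj| * t1 ≤ K * r) (hdc : |c1 - cj| ≤ K * r)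
    (hεF : |εF| ≤ R) (hεG : |εG| ≤ R1)
    (hF : gF = cj * dN - (q * cj + εF) * dX - kj * dz - aj * ((dX ^ 2 + dN ^ 2) / 2))
    (hG : gG = c1 * dN - (p1 * c1 + εG) * dX - k1 * dz - a1 * ((dX ^ 2 + dN ^ 2) / 2))
    (hGs : |gG| ≤ t1 * b0 * R1) :
    |gF| ≤ 118 * K ^ 5 * (tj * b0 * R) := by
  have hK0 : 0 < K := by linarith
  have htj0 : 0 < tj := lt_of_lt_of_le ht1 htj
  have hR10 : 0 ≤ R1 := (abs_nonneg _).trans hεG
  have K2 : K ≤ K ^ 2 := le_self_pow₀ hK (by norm_num)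
  have hP : |(dX ^ 2 + dN ^ 2) / 2| ≤ t1 * (b0 * (t1 * b0)) :=
    (half_sq hX hN).trans (le_of_eq (by ring))
  have s1 : |cj * gG| ≤ K * (tj * b0 * R) := by
    calc |cj * gG| ≤ K * (t1 * b0 * R1) := mulb hcj hGs
      _ ≤ K * (tj * b0 * R) := by gcongr
  have s2 : |(cj * c1 * (p1 - q) + (cj * εG - c1 * εF)) * dX| ≤ 3 * K ^ 2 * (tj * b0 * R) := by
    have h4 : |cj * c1 * (p1 - q) + (cj * εG - c1 * εF)| ≤ 3 * K ^ 2 * R := by
      refine (addb (mulb (mulb hcj hc1K) hqp) (subb (mulb hcj hεG) (mulb hc1K hεF))).trans ?_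
      have g4 : K * K * f ≤ K ^ 2 * R := by rw [← pow_two]; gcongr
      have g5 : K * R1 ≤ K ^ 2 * R := by gcongr
      have g6 : K * R ≤ K ^ 2 * R := by gcongr
      linarith
    calc _ ≤ 3 * K ^ 2 * R * (t1 * b0) := mulb h4 hX
      _ = 3 * K ^ 2 * (t1 * b0 * R) := by ring
      _ ≤ 3 * K ^ 2 * (tj * b0 * R) := by gcongr
  have s3 : |(cj * (k1 - kj) - (c1 - cj) * kj) * dz| ≤ 112 * K ^ 4 * (tj * b0 * R) := by
    have h4 : |cj * (k1 - kj) - (c1 - cj) * kj| ≤ 4 * K ^ 2 * r := by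
      refine (subb (mulb hcj hdk) (mulb hdc hkj)).trans (le_of_eq ?_)
      ring
    calc _ ≤ 4 * K ^ 2 * r * (28 * K ^ 2 * (t1 * b0 * b0)) := mulb h4 hz
      _ = 112 * K ^ 4 * (t1 * b0 * (r * b0)) := by ring
      _ ≤ 112 * K ^ 4 * (tj * b0 * R) := by gcongr
  have h1 : |cj * (a1 - aj)| * t1 ≤ K ^ 2 * r := by
    rw [abs_mul, mul_assoc]
    calc |cj| * (|a1 - aj| * t1) ≤ K * (K * r) := by gcongr
      _ = K ^ 2 * r := by ring
  have h2 : |(c1 - cj) * aj| * t1 ≤ K ^ 2 * r := by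
    rw [abs_mul, mul_assoc]
    calc |c1 - cj| * (|aj| * t1) ≤ K * r * (|aj| * tj) := by gcongr
      _ ≤ K * r * K := by gcongr
      _ = K ^ 2 * r := by ring
  have s4 : |(cj * (a1 - aj)) * ((dX ^ 2 + dN ^ 2) / 2)| ≤ K ^ 2 * (tj * b0 * R) := by
    calc _ ≤ K ^ 2 * r * (b0 * (t1 * b0)) := divb h1 (by positivity) hP
      _ = K ^ 2 * (t1 * b0 * (r * b0)) := by ring
      _ ≤ K ^ 2 * (tj * b0 * R) := by gcongr
  have s4' : |((c1 - cj) * aj) * ((dX ^ 2 + dN ^ 2) / 2)| ≤ K ^ 2 * (tj * b0 * R) := by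
    calc _ ≤ K ^ 2 * r * (b0 * (t1 * b0)) := divb h2 (by positivity) hP
      _ = K ^ 2 * (t1 * b0 * (r * b0)) := by ring
      _ ≤ K ^ 2 * (tj * b0 * R) := by gcongr
  have e1 : gF * c1 = cj * gG + (cj * c1 * (p1 - q) + (cj * εG - c1 * εF)) * dX +
      (cj * (k1 - kj) - (c1 - cj) * kj) * dz +
      (cj * (a1 - aj)) * ((dX ^ 2 + dN ^ 2) / 2) -
      ((c1 - cj) * aj) * ((dX ^ 2 + dN ^ 2) / 2) := by
    rw [hF, hG]; ring
  have k1' : K ≤ K ^ 4 := le_self_pow₀ hK (by norm_num)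
  have k2' : K ^ 2 ≤ K ^ 4 := pow_le_pow_right₀ hK (by norm_num)
  have hV : 0 < tj * b0 * R := by positivity
  have s5 : |gF * c1| ≤ 118 * K ^ 4 * (tj * b0 * R) := by
    rw [e1]
    refine (subb (addb (addb (addb s1 s2) s3) s4) s4').trans ?_
    have k3' : K * (tj * b0 * R) ≤ K ^ 4 * (tj * b0 * R) := by gcongr
    have k4' : K ^ 2 * (tj * b0 * R) ≤ K ^ 4 * (tj * b0 * R) := by gcongr
    linarith
  calc |gF| ≤ K * (118 * K ^ 4 * (tj * b0 * R)) := cancelb hK0.le hc1 s5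
    _ = _ := by ring


/-! ### the nominal position -/

variable {Ω τ : Type} (C : Pth Ω τ)

lemma T_eq {i' : ℕ} {ω ω' : Ω} (h : C.T i' ω' = C.T i' ω) {k : ℕ} (hk : k ≤ i') :
    C.T k ω' = C.T k ω := by
  obtain ⟨d, rfl⟩ := Nat.exists_eq_add_of_le hk
  induction d with
  | zero => exact h
  | succ d ih => exact ih (C.hT _ _ _ h) (by omega)

lemma s_tm (k : ℕ) (ω : Ω) : C.s k ω = C.tv k (C.T k ω) := by
  unfold Pth.s Pth.tv rd
  rw [C.htm]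

lemma s_eq {k : ℕ} {ω ω' : Ω} (h : C.T k ω' = C.T k ω) : C.s k ω' = C.s k ω := by
  rw [s_tm, s_tm, h]

lemma R_mono {j b : ℕ} : C.R j b ≤ C.R (j + 1) b := by
  have h1 := C.hk (Nat.le_succ j)
  have h2 := C.hf (Nat.le_succ j)
  have h3 := C.hkf j
  have h4 := C.hkf (j + 1)
  simp only [Nat.succ_eq_add_one] at h1 h2
  unfold Pth.R Pth.bs
  omega

lemma R_le_rf {j b : ℕ} : C.R j b ≤ C.rf j := by
  have h3 := C.hkf j
  unfold Pth.R Pth.bs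
  omega

lemma R_le {j b : ℕ} : C.R j b ≤ C.rk j + b := by
  unfold Pth.R Pth.bs
  omega

lemma bs_le_R {j b : ℕ} : C.bs j b ≤ C.R (j + 1) b := by
  have h1 := C.hk (Nat.le_succ j)
  have h2 := C.hf (Nat.le_succ j)
  have h3 := C.hkf j
  have h4 := C.hkf (j + 1)
  simp only [Nat.succ_eq_add_one] at h1 h2
  unfold Pth.R Pth.bs
  omega

/-- centred form of the coefficient -/
lemma cN_F (j : ℕ) (ω : Ω) (S : ℝ) :
    ((C.F j ω).sh (S - C.s j ω)).cN (C.l ω) S = (C.F j ω).cN (C.l ω) (C.s j ω) := by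
  have := (C.F j ω).cN_sh (C.l ω) (C.s j ω) (S - C.s j ω)
  rwa [add_sub_cancel] at this

lemma cV_F (j : ℕ) (ω : Ω) (S : ℝ) :
    ((C.F j ω).sh (S - C.s j ω)).cV (C.l ω) S =
      rd (C.rf j) (C.p ω) * ((C.F j ω).sh (S - C.s j ω)).cN (C.l ω) S := by
  have h1 := (C.F j ω).cV_sh (C.l ω) (C.s j ω) (S - C.s j ω)
  rw [add_sub_cancel] at h1
  rw [h1, cN_F]
  unfold Fu.cV Fu.cN Pth.F Pth.Fv
  simp only [← s_tm]
  ring

/-- the functional of the step `k` written at the time `s i'` -/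
noncomputable def Fs (i' k : ℕ) (ω : Ω) : Fu := (C.F k ω).sh (C.s i' ω - C.s k ω)

lemma ds_le {k i' : ℕ} (h : k ≤ i') (ω : Ω) : |C.s i' ω - C.s k ω| ≤ q2 (C.a k) :=
  rd_sub (C.ha h) _

section one

variable {C} {K : ℝ} {ω : Ω} {i' : ℕ}

lemma co_c1 (h : C.Ok K ω) (k : ℕ) : 1 ≤ K * (Fs C i' k ω).cN (C.l ω) (C.s i' ω) := by
  unfold Fs; rw [cN_F]; exact h.n1 k

lemma co_cK (hK : 0 ≤ K) (h : C.Ok K ω) (k : ℕ) :
    |(Fs C i' k ω).cN (C.l ω) (C.s i' ω)| ≤ K := by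
  have h1 := h.n1 k
  have h2 := h.n2 k
  unfold Fs; rw [cN_F]
  rw [abs_of_nonneg]
  · exact h2
  · by_contra hcon
    push Not at hcon
    have := mul_nonpos_of_nonneg_of_nonpos hK hcon.le
    linarith

lemma co_a (h : C.Ok K ω) (k : ℕ) : |(Fs C i' k ω).al| * q2 (C.a k) ≤ K := h.a1 k

lemma co_k {k : ℕ} (h : C.Ok K ω) (hk : k ≤ i') : |(Fs C i' k ω).ka| ≤ 2 * K := by
  have h1 := h.k1 k
  have h2 := h.a1 k
  have h3 := ds_le C hk ω
  have e : (Fs C i' k ω).ka = (C.F k ω).ka - (C.F k ω).al * (C.s i' ω - C.s k ω) := by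
    unfold Fs Fu.sh; ring
  rw [e]
  have h4 : |(C.F k ω).al * (C.s i' ω - C.s k ω)| ≤ K * 1 :=
    divb h2 (by norm_num) (by rw [mul_one]; exact h3)
  refine (subb h1 h4).trans (le_of_eq ?_)
  ring

lemma co_da {j : ℕ} (h : C.Ok K ω) :
    |(Fs C i' (j + 1) ω).al - (Fs C i' j ω).al| * q2 (C.a (j + 1)) ≤ K * q2 (C.rk j) :=
  (h.ag j (j + 1) (Nat.le_succ j)).al

lemma co_dk {j : ℕ} (h : C.Ok K ω) (hj : j + 1 ≤ i') :
    |(Fs C i' (j + 1) ω).ka - (Fs C i' j ω).ka| ≤ 2 * K * q2 (C.rk j) := by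
  have h1 := (h.ag j (j + 1) (Nat.le_succ j)).ka
  have h2 := (h.ag j (j + 1) (Nat.le_succ j)).al
  have h3 := ds_le C hj ω
  have e : (Fs C i' (j + 1) ω).ka - (Fs C i' j ω).ka =
      ((C.F (j + 1) ω).ka - ((C.F j ω).sh (C.s (j + 1) ω - C.s j ω)).ka) -
      ((C.F (j + 1) ω).al - ((C.F j ω).sh (C.s (j + 1) ω - C.s j ω)).al) *
        (C.s i' ω - C.s (j + 1) ω) := by
    unfold Fs Fu.sh; ring
  rw [e]
  have h4 := divb h2 (by norm_num : (0 : ℝ) ≤ 1) (by rw [mul_one]; exact h3)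
  refine (subb h1 h4).trans (le_of_eq ?_)
  ring

lemma co_dc {j : ℕ} (h : C.Ok K ω) :
    |(Fs C i' (j + 1) ω).cN (C.l ω) (C.s i' ω) - (Fs C i' j ω).cN (C.l ω) (C.s i' ω)| ≤
      K * q2 (C.rk j) := by
  have h1 := (h.ag j (j + 1) (Nat.le_succ j)).cN
  unfold Fs
  rw [cN_F, cN_F]
  rwa [cN_F] at h1

lemma Fs_ph (k : ℕ) : (Fs C i' k ω).ph =
    rd (C.rf k) (C.p ω) * (Fs C i' k ω).cN (C.l ω) (C.s i' ω) -
      (Fs C i' k ω).ka * (C.l ω).v - (Fs C i' k ω).al * (C.l ω).X (C.s i' ω) := by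
  have h := cV_F C k ω (C.s i' ω)
  unfold Fs
  rw [← h]
  unfold Fu.cV
  ring

lemma rp_le {b j k : ℕ} (h : C.Ok K ω) (hL : C.Lev j b) (hk : j ≤ k) :
    |rd (C.rf k) (C.p ω)| ≤ 2 * q2 (2 * C.μ) := by
  have h1 := rd_err (C.rf k) (C.p ω)
  have h2 := h.p1
  have h3 : q2 (C.rf k) ≤ q2 (2 * C.μ) := by
    apply q2_le
    have := hL.2
    have h4 : C.R j b ≤ C.rf j := R_le_rf C
    have h5 := C.hf hk
    omega
  have e : rd (C.rf k) (C.p ω) = (rd (C.rf k) (C.p ω) - C.p ω) + C.p ω := by ring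
  rw [e]
  refine (addb h1 h2).trans ?_
  linarith

end one

/-- two points with the same nominal position of the step `j + 1` and the same letter -/
structure Pr (j b i' : ℕ) (ω ω' : Ω) : Prop where
  T : C.T i' ω' = C.T i' ω
  v : fl1 b (C.l ω').v = fl1 b (C.l ω).v
  w : fl1 (b - C.μ) ((C.l ω').w + C.o 1) = fl1 (b - C.μ) ((C.l ω).w + C.o 1)
  X : fl1 (C.a (j + 1) + b) ((C.l ω').X (C.s i' ω')) =
    fl1 (C.a (j + 1) + b) ((C.l ω).X (C.s i' ω))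
  N : fl1 (C.a (j + 1) + b) ((C.l ω').N (C.s i' ω')) =
    fl1 (C.a (j + 1) + b) ((C.l ω).N (C.s i' ω))
  Z : fl1 (C.a (j + 1) + 2 * b) (C.Zs b (C.s i' ω') ω') =
    fl1 (C.a (j + 1) + 2 * b) (C.Zs b (C.s i' ω) ω)
  sl : fl1 (C.R (j + 1) b) (C.sl (j + 1) b ω' + C.o 4) =
    fl1 (C.R (j + 1) b) (C.sl (j + 1) b ω + C.o 4)
  g : fl1 (C.a (j + 1) + b + C.R (j + 1) b)
      (((C.Fr (j + 1) b (C.R (j + 1) b) ω').sh (C.s i' ω' - C.s (j + 1) ω')).g (C.l ω')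
        (C.s i' ω')) =
    fl1 (C.a (j + 1) + b + C.R (j + 1) b)
      (((C.Fr (j + 1) b (C.R (j + 1) b) ω).sh (C.s i' ω - C.s (j + 1) ω)).g (C.l ω)
        (C.s i' ω))

section two

variable {C} {K : ℝ} {j b i' : ℕ} {ω ω' : Ω}

lemma Pr.T' (h : Pr C j b i' ω ω') {k : ℕ} (hk : k ≤ i') : C.T k ω' = C.T k ω := T_eq C h.T hk

lemma Pr.s' (h : Pr C j b i' ω ω') {k : ℕ} (hk : k ≤ i') : C.s k ω' = C.s k ω :=
  s_eq C (h.T' hk)

lemma Pr.ka (h : Pr C j b i' ω ω') {k : ℕ} (hk : k ≤ i') :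
    (C.F k ω').ka = (C.F k ω).ka := by
  unfold Pth.F Pth.Fv
  rw [h.T' hk]

lemma Pr.ga (h : Pr C j b i' ω ω') {k : ℕ} (hk : k ≤ i') :
    (C.F k ω').ga = (C.F k ω).ga := by
  unfold Pth.F Pth.Fv
  rw [h.T' hk]

lemma Pr.al (h : Pr C j b i' ω ω') {k : ℕ} (hk : k ≤ i') :
    (C.F k ω').al = (C.F k ω).al := by
  unfold Pth.F Pth.Fv
  rw [h.T' hk]

lemma Pr.kas (h : Pr C j b i' ω ω') {k : ℕ} (hk : k ≤ i') :
    (Fs C i' k ω').ka = (Fs C i' k ω).ka := by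
  unfold Fs Fu.sh
  rw [h.ka hk, h.al hk, h.s' le_rfl, h.s' hk]

lemma Pr.gas (h : Pr C j b i' ω ω') {k : ℕ} (hk : k ≤ i') :
    (Fs C i' k ω').ga = (Fs C i' k ω).ga := h.ga hk

lemma Pr.als (h : Pr C j b i' ω ω') {k : ℕ} (hk : k ≤ i') :
    (Fs C i' k ω').al = (Fs C i' k ω).al := h.al hk

/-- **slope** -/
lemma Pr.sl_close (hK : 1 ≤ K) (h : Pr C j b i' ω ω') (ho : C.Ok K ω) (ho' : C.Ok K ω')
    (hL : C.Lev j b) (hj : j + 1 ≤ i') :
    |C.sl j b ω' - C.sl j b ω| ≤ 24 * K ^ 3 * q2 (C.R j b) := by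
  have hj0 : j ≤ i' := by omega
  have hs := h.s' (le_refl i')
  have hv := fl1_close h.v
  have hw : |(C.l ω').w - (C.l ω).w| ≤ q2 (b - C.μ) := by
    have := fl1_close h.w
    rwa [add_sub_add_right_eq_sub] at this
  have hX : |(C.l ω').X (C.s i' ω) - (C.l ω).X (C.s i' ω)| ≤ q2 (C.a (j + 1)) * q2 b := by
    have := fl1_close h.X
    rwa [hs, q2_add] at this
  have hN : |(C.l ω').N (C.s i' ω) - (C.l ω).N (C.s i' ω)| ≤ q2 (C.a (j + 1)) * q2 b := by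
    have := fl1_close h.N
    rwa [hs, q2_add] at this
  have hbs : C.bs (j + 1) b ≤ b := by unfold Pth.bs; omega
  have hbs0 : C.bs j b ≤ b := by unfold Pth.bs; omega
  have hbsf : C.bs j b ≤ C.rf j := by unfold Pth.bs; omega
  -- the slope of the second slab
  have hsl : |(Fs C i' (j + 1) ω').ph - (Fs C i' (j + 1) ω).ph| ≤ q2 (C.R (j + 1) b) := by
    have := fl1_close h.sl
    rw [add_sub_add_right_eq_sub] at this
    have e : C.sl (j + 1) b ω' - C.sl (j + 1) b ω =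
        (Fs C i' (j + 1) ω').ph - (Fs C i' (j + 1) ω).ph := by
      unfold Pth.sl
      rw [h.ka hj, rd_eq (fl1_fl1 hbs h.v)]
      unfold Fs Fu.sh
      ring
    rwa [e] at this
  have e : C.sl j b ω' - C.sl j b ω = (Fs C i' j ω').ph - (Fs C i' j ω).ph := by
    unfold Pth.sl
    rw [h.ka hj0, rd_eq (fl1_fl1 hbs0 h.v)]
    unfold Fs Fu.sh
    ring
  rw [e, Fs_ph, Fs_ph, h.kas hj0, h.als hj0, hs]
  rw [Fs_ph, Fs_ph, h.kas hj, h.als hj, hs] at hsl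
  have c1 := co_c1 (i' := i') ho (j + 1)
  have c2 := co_cK (i' := i') (by linarith) ho (j + 1)
  have c3 := co_cK (i' := i') (by linarith) ho' (j + 1)
  have c4 := co_dc (i' := i') (j := j) ho
  unfold Fu.cN at c1 c2 c3 c4 hsl ⊢
  rw [h.gas hj, h.kas hj, h.als hj] at hsl
  rw [h.gas hj, h.kas hj, h.als hj, hs] at c3
  rw [h.gas hj0, h.kas hj0, h.als hj0]
  refine slope_real hK (q2_pos b) (q2_pos (C.rk j)) hv hw hX hN (q2_le (by omega)) ?_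
    (q2_le hbs0) ?_ ?_ (q2_le (R_mono C)) (q2_le (bs_le_R C)) (q2_le (R_le_rf C)) (q2_le hbsf)
    (rp_le ho' hL le_rfl) (rp_le ho' hL (Nat.le_succ j)) (rd_sub (C.hf (Nat.le_succ j)) _)
    (rd_sub (C.hf (Nat.le_succ j)) _) c1 c2 c3 (co_k ho hj) (co_a ho (j + 1)) (co_dk ho hj)
    (co_da ho) c4 hsl
  · rw [← q2_add]; exact q2_le (by omega)
  · rw [← q2_add]; rfl
  · rw [← q2_add]; exact q2_le (R_le C)

/-- the rounded functional of the step `k` written at the time `s i'` -/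
noncomputable def Gs (C : Pth Ω τ) (i' k b : ℕ) (ω : Ω) : Fu :=
  (C.Fr k b (C.R k b) ω).sh (C.s i' ω - C.s k ω)

/-- rounding error of the slope -/
noncomputable def er (C : Pth Ω τ) (k b : ℕ) (ω : Ω) : ℝ :=
  C.ro 4 (C.R k b) (C.sl k b ω) - C.sl k b ω

lemma er_le (k : ℕ) : |er C k b ω| ≤ q2 (C.R k b) := by
  have := rd_err (C.R k b) (C.sl k b ω + C.o 4)
  have e : er C k b ω = rd (C.R k b) (C.sl k b ω + C.o 4) - (C.sl k b ω + C.o 4) := by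
    unfold er Pth.ro; ring
  rwa [e]

lemma Gs_sub (k : ℕ) (l' : Ray) :
    (Gs C i' k b ω).g l' (C.s i' ω) - (Gs C i' k b ω).g (C.l ω) (C.s i' ω) =
      (Fs C i' k ω).cN (C.l ω) (C.s i' ω) * (l'.N (C.s i' ω) - (C.l ω).N (C.s i' ω)) -
      (rd (C.rf k) (C.p ω) * (Fs C i' k ω).cN (C.l ω) (C.s i' ω) + er C k b ω) *
        (l'.X (C.s i' ω) - (C.l ω).X (C.s i' ω)) -
      (Fs C i' k ω).ka * (C.l ω).dz l' (C.s i' ω) -
      (Fs C i' k ω).al * (((l'.X (C.s i' ω) - (C.l ω).X (C.s i' ω)) ^ 2 +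
        (l'.N (C.s i' ω) - (C.l ω).N (C.s i' ω)) ^ 2) / 2) := by
  rw [Fu.g_sub]
  have e1 : (Gs C i' k b ω).cN (C.l ω) (C.s i' ω) = (Fs C i' k ω).cN (C.l ω) (C.s i' ω) := rfl
  have e2 : (Gs C i' k b ω).cV (C.l ω) (C.s i' ω) =
      rd (C.rf k) (C.p ω) * (Fs C i' k ω).cN (C.l ω) (C.s i' ω) + er C k b ω := by
    have h := cV_F C k ω (C.s i' ω)
    have h' : (Fs C i' k ω).cV (C.l ω) (C.s i' ω) =
      rd (C.rf k) (C.p ω) * (Fs C i' k ω).cN (C.l ω) (C.s i' ω) := h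
    rw [← h']
    unfold er Fu.cV Gs Fs Fu.sh Pth.Fr Pth.sl
    simp only
    ring
  rw [e1, e2]
  rfl

lemma Pr.Gs_eq (h : Pr C j b i' ω ω') {k : ℕ} (hk : k ≤ i')
    (hr : fl1 (C.R k b) (C.sl k b ω' + C.o 4) = fl1 (C.R k b) (C.sl k b ω + C.o 4)) :
    Gs C i' k b ω' = Gs C i' k b ω := by
  have hbs : C.bs k b ≤ b := by unfold Pth.bs; omega
  have e : C.ro 4 (C.R k b) (C.sl k b ω') = C.ro 4 (C.R k b) (C.sl k b ω) := by
    unfold Pth.ro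
    rw [rd_eq hr]
  unfold Gs Fu.sh Pth.Fr
  simp only
  rw [e, h.ka hk, h.al hk, h.ga hk, h.s' le_rfl, h.s' hk, rd_eq (fl1_fl1 hbs h.v)]

/-- **value** -/
lemma Pr.g_close (hK : 1 ≤ K) (h : Pr C j b i' ω ω') (ho : C.Ok K ω)
    (hL : C.Lev j b) (hj : j + 1 ≤ i')
    (hr : fl1 (C.R j b) (C.sl j b ω' + C.o 4) = fl1 (C.R j b) (C.sl j b ω + C.o 4)) :
    |(Gs C i' j b ω').g (C.l ω') (C.s i' ω') - (Gs C i' j b ω).g (C.l ω) (C.s i' ω)| ≤
      118 * K ^ 5 * q2 (C.a j + b + C.R j b) := by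
  have hj0 : j ≤ i' := by omega
  have hs := h.s' (le_refl i')
  have hX : |(C.l ω').X (C.s i' ω) - (C.l ω).X (C.s i' ω)| ≤ q2 (C.a (j + 1)) * q2 b := by
    have := fl1_close h.X
    rwa [hs, q2_add] at this
  have hN : |(C.l ω').N (C.s i' ω) - (C.l ω).N (C.s i' ω)| ≤ q2 (C.a (j + 1)) * q2 b := by
    have := fl1_close h.N
    rwa [hs, q2_add] at this
  have hv : |(C.l ω).v - rd b (C.l ω).v| ≤ q2 b := by
    rw [abs_sub_comm]; exact rd_err _ _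
  have hw : |(C.l ω).w - C.ro 1 (b - C.μ) (C.l ω).w| ≤ q2 (b - C.μ) := by
    have := rd_err (b - C.μ) ((C.l ω).w + C.o 1)
    rw [abs_sub_comm] at this
    have e : (C.l ω).w - C.ro 1 (b - C.μ) (C.l ω).w =
        (C.l ω).w + C.o 1 - rd (b - C.μ) ((C.l ω).w + C.o 1) := by
      unfold Pth.ro; ring
    rwa [e]
  have hz : |(C.l ω).dz (C.l ω') (C.s i' ω) +
      ((C.l ω).v - rd b (C.l ω).v) * ((C.l ω').X (C.s i' ω) - (C.l ω).X (C.s i' ω)) +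
      ((C.l ω).w - C.ro 1 (b - C.μ) (C.l ω).w) *
        ((C.l ω').N (C.s i' ω) - (C.l ω).N (C.s i' ω))| ≤ q2 (C.a (j + 1)) * q2 b * q2 b := by
    have := fl1_close h.Z
    have e2 : C.ro 1 (b - C.μ) (C.l ω').w = C.ro 1 (b - C.μ) (C.l ω).w := by
      unfold Pth.ro
      rw [rd_eq h.w]
    have e : C.Zs b (C.s i' ω') ω' - C.Zs b (C.s i' ω) ω =
        (C.l ω).dz (C.l ω') (C.s i' ω) +
      ((C.l ω).v - rd b (C.l ω).v) * ((C.l ω').X (C.s i' ω) - (C.l ω).X (C.s i' ω)) +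
      ((C.l ω).w - C.ro 1 (b - C.μ) (C.l ω).w) *
        ((C.l ω').N (C.s i' ω) - (C.l ω).N (C.s i' ω)) := by
      unfold Pth.Zs Ray.dz
      rw [e2, rd_eq h.v, hs]
      ring
    rw [e] at this
    refine this.trans (le_of_eq ?_)
    rw [q2_add, two_mul, q2_add]
    ring
  have hG := Gs_sub (C := C) (i' := i') (b := b) (ω := ω) (j + 1) (C.l ω')
  have hF := Gs_sub (C := C) (i' := i') (b := b) (ω := ω) j (C.l ω')
  have hGs : |(Gs C i' (j + 1) b ω).g (C.l ω') (C.s i' ω) -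
      (Gs C i' (j + 1) b ω).g (C.l ω) (C.s i' ω)| ≤
      q2 (C.a (j + 1)) * q2 b * q2 (C.R (j + 1) b) := by
    have := fl1_close h.g
    have e1 := h.Gs_eq hj h.sl
    unfold Gs at e1 ⊢
    rw [e1, hs] at this
    refine this.trans (le_of_eq ?_)
    rw [q2_add, q2_add]
  rw [h.Gs_eq hj0 hr, hs]
  have hL1 := hL.1
  have hL2 := hL.2
  have hR := R_mono C (j := j) (b := b)
  have hdN := dN_real hK (q2_pos b) (q2_pos (C.a (j + 1))) (q2_pos (2 * C.μ)).le hX hN hv hw hz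
    (q2_le (by omega)) (q2_le (by omega)) (rp_le ho hL (Nat.le_succ j)) (co_c1 ho (j + 1))
    (co_cK (by linarith) ho (j + 1)) (co_k ho hj) (co_a ho (j + 1)) (er_le (j + 1)) hG hGs
  have hdz := dz_real hK (q2_pos b) (q2_pos (C.a (j + 1))) hX hv hw hz (m2 := q2 (2 * C.μ))
    (by rw [← q2_add]; exact q2_le (by omega)) (by
      have : q2 (b - C.μ) ≤ q2 0 := q2_le (Nat.zero_le _)
      simpa [q2] using this) hdN
  refine (value_real hK (q2_pos b) (q2_pos (C.rk j)) (q2_pos _) (q2_le (C.ha (Nat.le_succ j)))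
    (q2_pos _) hX hN hdz (by rw [← q2_add]; exact q2_le (R_le C)) (q2_le hR)
    (q2_le (R_le_rf C)) (rd_sub (C.hf (Nat.le_succ j)) _) (co_cK (by linarith) ho j)
    (co_c1 ho (j + 1)) (co_cK (by linarith) ho (j + 1)) (co_k ho hj0) (co_a ho j)
    (co_dk ho hj) (co_da ho) (co_dc ho) (er_le j) (er_le (j + 1)) hF hG hGs).trans (le_of_eq ?_)
  rw [q2_add, q2_add]

end two

/-! ### the chain fact -/

lemma Pr_of {j b i' : ℕ} {ω ω' : Ω}
    (h : (C.A (j + 1) b i' ω', C.T i' ω') = (C.A (j + 1) b i' ω, C.T i' ω)) :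
    Pr C j b i' ω ω' := by
  simp only [Pth.A, Prod.mk.injEq] at h
  obtain ⟨⟨h1, h2, h3, h4, h5, h6, h7⟩, h8⟩ := h
  exact ⟨h8, h1, h2, h3, h4, h5, h6, h7⟩

/-- **[CHA]** chain fact: given the nominal position of the step `j + 1` and the letter, the nominal position of
the step `j` has a bounded number of possibilities -/
theorem cha [Fintype Ω] (P : Law Ω) {K : ℝ} (hK : 1 ≤ K) (hok : ∀ ω, 0 < P.w ω → C.Ok K ω)
    {j b i' : ℕ} (hj : j + 1 ≤ i') (hL : C.Lev j b) :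
    hc P (C.A j b i') (fun ω => (C.A (j + 1) b i' ω, C.T i' ω)) ≤
      2 * Real.log ((2 * ⌈118 * K ^ 5⌉₊ + 3 : ℕ) : ℝ) := by
  classical
  set M : ℕ := ⌈118 * K ^ 5⌉₊ with hM
  have hM1 : 118 * K ^ 5 ≤ (M : ℝ) := Nat.le_ceil _
  have hM2 : 24 * K ^ 3 ≤ (M : ℝ) := by
    have h1 : K ^ 3 ≤ K ^ 5 := pow_le_pow_right₀ hK (by norm_num)
    have h2 : 0 ≤ K ^ 5 := by positivity
    linarith
  have ha : C.a j ≤ C.a (j + 1) := C.ha (Nat.le_succ j)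
  set c6 : Ω → ℤ := fun ω => fl1 (C.R j b) (C.sl j b ω + C.o 4) with hc6
  set c7 : Ω → ℤ := fun ω => fl1 (C.a j + b + C.R j b)
    ((Gs C i' j b ω).g (C.l ω) (C.s i' ω)) with hc7
  have hcard : ∀ z : ℤ, (Finset.Icc (z - (M + 1)) (z + (M + 1))).card = 2 * M + 3 := by
    intro z
    rw [Int.card_Icc]
    omega
  have h1 : hc P c6 (fun ω => (C.A (j + 1) b i' ω, C.T i' ω)) ≤
      Real.log ((2 * M + 3 : ℕ) : ℝ) := by
    refine hc_le_log P _ _ _ fun ω hω => ⟨Finset.Icc (c6 ω - (M + 1)) (c6 ω + (M + 1)),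
      (hcard _).le, fun ω' hω' e => ?_⟩
    have hp := Pr_of C e
    have h2 := hp.sl_close hK (hok ω hω) (hok ω' hω') hL hj
    have h3 : |(C.sl j b ω' + C.o 4) - (C.sl j b ω + C.o 4)| ≤ M * q2 (C.R j b) := by
      rw [add_sub_add_right_eq_sub]
      refine h2.trans ?_
      have := q2_pos (C.R j b)
      gcongr
    have h4 := abs_le.1 (fl1_range h3)
    rw [Finset.mem_Icc]
    simp only [hc6]
    constructor <;> linarith [h4.1, h4.2]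
  have h2 : hc P (C.A j b i') (fun ω => (c6 ω, (C.A (j + 1) b i' ω, C.T i' ω))) ≤
      Real.log ((2 * M + 3 : ℕ) : ℝ) := by
    refine hc_le_log P _ _ _ fun ω hω => ⟨(Finset.Icc (c7 ω - (M + 1)) (c7 ω + (M + 1))).image
      (fun z => (fl1 b (C.l ω).v, fl1 (b - C.μ) ((C.l ω).w + C.o 1),
        fl1 (C.a j + b) ((C.l ω).X (C.s i' ω)), fl1 (C.a j + b) ((C.l ω).N (C.s i' ω)),
        fl1 (C.a j + 2 * b) (C.Zs b (C.s i' ω) ω), c6 ω, z)),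
      (Finset.card_image_le).trans (hcard _).le, fun ω' hω' e => ?_⟩
    simp only [Prod.mk.injEq] at e
    obtain ⟨e6, e1, e2⟩ := e
    have hp := Pr_of C (Prod.ext e1 e2 :
      (C.A (j + 1) b i' ω', C.T i' ω') = (C.A (j + 1) b i' ω, C.T i' ω))
    have h3 := hp.g_close hK (hok ω hω) hL hj e6
    have h4 : |(Gs C i' j b ω').g (C.l ω') (C.s i' ω') -
        (Gs C i' j b ω).g (C.l ω) (C.s i' ω)| ≤ M * q2 (C.a j + b + C.R j b) := by
      refine h3.trans ?_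
      have := q2_pos (C.a j + b + C.R j b)
      gcongr
    have h5 := abs_le.1 (fl1_range h4)
    rw [Finset.mem_image]
    refine ⟨c7 ω', ?_, ?_⟩
    · rw [Finset.mem_Icc]
      simp only [hc7]
      constructor <;> linarith [h5.1, h5.2]
    · have g1 := hp.v
      have g2 := hp.w
      have g3 := fl1_fl1 (show C.a j + b ≤ C.a (j + 1) + b by omega) hp.X
      have g4 := fl1_fl1 (show C.a j + b ≤ C.a (j + 1) + b by omega) hp.N
      have g5 := fl1_fl1 (show C.a j + 2 * b ≤ C.a (j + 1) + 2 * b by omega) hp.Z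
      unfold Pth.A
      rw [g1, g2, g3, g4, g5]
      simp only [Prod.mk.injEq, true_and]
      exact ⟨e6.symm, rfl⟩
  have h3 := hc_le_add P (C.A j b i') c6 (fun ω => (C.A (j + 1) b i' ω, C.T i' ω))
  linarith

end Vale.Agent.P106.U.H84
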