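import Vale.Agent.P106.U.H84.Ju

/-!
# P106 / U : the two facts about nominal positions with times only (helper84)

* `cha_t` : `H(A j b i' | A (j+1) b i', T (j+1), time to a_i' digits) ≤ 2 log (2 ⌈118 K^5⌉ + 3)`.
* `ju_t` : `H(A k b i' | time to a_i' digits, cell k b) ≤ 15 μ log 2 + log 18865`.
-/

set_option autoImplicit false

namespace Vale.Agent.P106.U.H84

open Finset Vale.Agent.P127 Vale.Agent.P127.Stk
open Vale.Agent.P127.U.CellD (q2 rd q2_pos q2_add q2_le rd_le lt_rd rd_err rd_mono rd_sub fl1_fl1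
  q2_mul_pow div_pow_eq)
open Vale.Agent.P106.U.Cell

variable {Ω τ : Type} {C : Pth Ω τ}

/-- two points with the same nominal position of the step `j + 1` and the same letter -/
structure Pt (C : Pth Ω τ) (j b i' : ℕ) (ω ω' : Ω) : Prop where
  T : C.T (j + 1) ω' = C.T (j + 1) ω
  tt : fl1 (C.a i') (C.t ω') = fl1 (C.a i') (C.t ω)
  v : fl1 b (C.l ω').v = fl1 b (C.l ω).v
  w : fl1 (b - C.μ) ((C.l ω').w + C.o 1) = fl1 (b - C.μ) ((C.l ω).w + C.o 1)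
  X : fl1 (C.a (j + 1) + b) ((C.l ω').X (C.s i' ω')) =
    fl1 (C.a (j + 1) + b) ((C.l ω).X (C.s i' ω))
  N : fl1 (C.a (j + 1) + b) ((C.l ω').N (C.s i' ω')) =
    fl1 (C.a (j + 1) + b) ((C.l ω).N (C.s i' ω))
  Z : fl1 (C.a (j + 1) + 2 * b) (C.Zs b (C.s i' ω') ω') =
    fl1 (C.a (j + 1) + 2 * b) (C.Zs b (C.s i' ω) ω)
  sl : fl1 (C.R (j + 1) b) (C.sl (j + 1) b ω' + C.o 4) =
    fl1 (C.R (j + 1) b) (C.sl (j + 1) b ω + C.o 4)
  g : fl1 (C.a (j + 1) + b + C.R (j + 1) b)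
      (((C.Fr (j + 1) b (C.R (j + 1) b) ω').sh (C.s i' ω' - C.s (j + 1) ω')).g (C.l ω')
        (C.s i' ω')) =
    fl1 (C.a (j + 1) + b + C.R (j + 1) b)
      (((C.Fr (j + 1) b (C.R (j + 1) b) ω).sh (C.s i' ω - C.s (j + 1) ω)).g (C.l ω)
        (C.s i' ω))

section two

variable {K : ℝ} {j b i' : ℕ} {ω ω' : Ω}

lemma Pt.T' (h : Pt C j b i' ω ω') {k : ℕ} (hk : k ≤ j + 1) : C.T k ω' = C.T k ω := T_eq C h.T hk

lemma Pt.s' (h : Pt C j b i' ω ω') {k : ℕ} (hk : k ≤ j + 1) : C.s k ω' = C.s k ω :=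
  s_eq C (h.T' hk)

lemma Pt.si (h : Pt C j b i' ω ω') : C.s i' ω' = C.s i' ω := rd_eq h.tt

lemma Pt.ka (h : Pt C j b i' ω ω') {k : ℕ} (hk : k ≤ j + 1) :
    (C.F k ω').ka = (C.F k ω).ka := by
  unfold Pth.F Pth.Fv
  rw [h.T' hk]

lemma Pt.ga (h : Pt C j b i' ω ω') {k : ℕ} (hk : k ≤ j + 1) :
    (C.F k ω').ga = (C.F k ω).ga := by
  unfold Pth.F Pth.Fv
  rw [h.T' hk]

lemma Pt.al (h : Pt C j b i' ω ω') {k : ℕ} (hk : k ≤ j + 1) :
    (C.F k ω').al = (C.F k ω).al := by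
  unfold Pth.F Pth.Fv
  rw [h.T' hk]

lemma Pt.kas (h : Pt C j b i' ω ω') {k : ℕ} (hk : k ≤ j + 1) :
    (Fs C i' k ω').ka = (Fs C i' k ω).ka := by
  unfold Fs Fu.sh
  rw [h.ka hk, h.al hk, h.si, h.s' hk]

lemma Pt.gas (h : Pt C j b i' ω ω') {k : ℕ} (hk : k ≤ j + 1) :
    (Fs C i' k ω').ga = (Fs C i' k ω).ga := h.ga hk

lemma Pt.als (h : Pt C j b i' ω ω') {k : ℕ} (hk : k ≤ j + 1) :
    (Fs C i' k ω').al = (Fs C i' k ω).al := h.al hk

/-- **slope** -/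
lemma Pt.sl_close (hK : 1 ≤ K) (h : Pt C j b i' ω ω') (ho : C.Ok K ω) (ho' : C.Ok K ω')
    (hL : C.Lev j b) (hj : j + 1 ≤ i') :
    |C.sl j b ω' - C.sl j b ω| ≤ 24 * K ^ 3 * q2 (C.R j b) := by
  have hj0 : j ≤ i' := by omega
  have hs := h.si
  have hjj : j ≤ j + 1 := Nat.le_succ j
  have hj1 : j + 1 ≤ j + 1 := le_rfl
  have hv := fl1_close h.v
  have hw : |(C.l ω').w - (C.l ω).w| ≤ q2 (b - C.μ) := by
    have := fl1_close h.w
    rwa [add_sub_add_right_eq_sub] at this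
  have hX : |(C.l ω').X (C.s i' ω) - (C.l ω).X (C.s i' ω)| ≤ q2 (C.a (j + 1)) * q2 b := by
    have := fl1_close h.X
    rwa [hs, q2_add] at this
  have hN : |(C.l ω').N (C.s i' ω) - (C.l ω).N (C.s i' ω)| ≤ q2 (C.a (j + 1)) * q2 b := by
    have := fl1_close h.N
    rwa [hs, q2_add] at this
  have hbs : C.bs (j + 1) b ≤ b := by unfold Pth.bs; omega
  have hbs0 : C.bs j b ≤ b := by unfold Pth.bs; omega
  have hbsf : C.bs j b ≤ C.rf j := by unfold Pth.bs; omega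
  -- the slope of the second slab
  have hsl : |(Fs C i' (j + 1) ω').ph - (Fs C i' (j + 1) ω).ph| ≤ q2 (C.R (j + 1) b) := by
    have := fl1_close h.sl
    rw [add_sub_add_right_eq_sub] at this
    have e : C.sl (j + 1) b ω' - C.sl (j + 1) b ω =
        (Fs C i' (j + 1) ω').ph - (Fs C i' (j + 1) ω).ph := by
      unfold Pth.sl
      rw [h.ka hj1, rd_eq (fl1_fl1 hbs h.v)]
      unfold Fs Fu.sh
      ring
    rwa [e] at this
  have e : C.sl j b ω' - C.sl j b ω = (Fs C i' j ω').ph - (Fs C i' j ω).ph := by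
    unfold Pth.sl
    rw [h.ka hjj, rd_eq (fl1_fl1 hbs0 h.v)]
    unfold Fs Fu.sh
    ring
  rw [e, Fs_ph, Fs_ph, h.kas hjj, h.als hjj, hs]
  rw [Fs_ph, Fs_ph, h.kas hj1, h.als hj1, hs] at hsl
  have c1 := co_c1 (i' := i') ho (j + 1)
  have c2 := co_cK (i' := i') (by linarith) ho (j + 1)
  have c3 := co_cK (i' := i') (by linarith) ho' (j + 1)
  have c4 := co_dc (i' := i') (j := j) ho
  unfold Fu.cN at c1 c2 c3 c4 hsl ⊢
  rw [h.gas hj1, h.kas hj1, h.als hj1] at hsl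
  rw [h.gas hj1, h.kas hj1, h.als hj1, hs] at c3
  rw [h.gas hjj, h.kas hjj, h.als hjj]
  refine slope_real hK (q2_pos b) (q2_pos (C.rk j)) hv hw hX hN (q2_le (by omega)) ?_
    (q2_le hbs0) ?_ ?_ (q2_le (R_mono C)) (q2_le (bs_le_R C)) (q2_le (R_le_rf C)) (q2_le hbsf)
    (rp_le ho' hL le_rfl) (rp_le ho' hL (Nat.le_succ j)) (rd_sub (C.hf (Nat.le_succ j)) _)
    (rd_sub (C.hf (Nat.le_succ j)) _) c1 c2 c3 (co_k ho hj) (co_a ho (j + 1)) (co_dk ho hj)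
    (co_da ho) c4 hsl
  · rw [← q2_add]; exact q2_le (by omega)
  · rw [← q2_add]; rfl
  · rw [← q2_add]; exact q2_le (R_le C)

lemma Pt.Gs_eq (h : Pt C j b i' ω ω') {k : ℕ} (hk : k ≤ j + 1)
    (hr : fl1 (C.R k b) (C.sl k b ω' + C.o 4) = fl1 (C.R k b) (C.sl k b ω + C.o 4)) :
    Gs C i' k b ω' = Gs C i' k b ω := by
  have hbs : C.bs k b ≤ b := by unfold Pth.bs; omega
  have e : C.ro 4 (C.R k b) (C.sl k b ω') = C.ro 4 (C.R k b) (C.sl k b ω) := by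
    unfold Pth.ro
    rw [rd_eq hr]
  unfold Gs Fu.sh Pth.Fr
  simp only
  rw [e, h.ka hk, h.al hk, h.ga hk, h.si, h.s' hk, rd_eq (fl1_fl1 hbs h.v)]

/-- **value** -/
lemma Pt.g_close (hK : 1 ≤ K) (h : Pt C j b i' ω ω') (ho : C.Ok K ω)
    (hL : C.Lev j b) (hj : j + 1 ≤ i')
    (hr : fl1 (C.R j b) (C.sl j b ω' + C.o 4) = fl1 (C.R j b) (C.sl j b ω + C.o 4)) :
    |(Gs C i' j b ω').g (C.l ω') (C.s i' ω') - (Gs C i' j b ω).g (C.l ω) (C.s i' ω)| ≤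
      118 * K ^ 5 * q2 (C.a j + b + C.R j b) := by
  have hj0 : j ≤ i' := by omega
  have hs := h.si
  have hjj : j ≤ j + 1 := Nat.le_succ j
  have hj1 : j + 1 ≤ j + 1 := le_rfl
  have hX : |(C.l ω').X (C.s i' ω) - (C.l ω).X (C.s i' ω)| ≤ q2 (C.a (j + 1)) * q2 b := by
    have := fl1_close h.X
    rwa [hs, q2_add] at this
  have hN : |(C.l ω').N (C.s i' ω) - (C.l ω).N (C.s i' ω)| ≤ q2 (C.a (j + 1)) * q2 b := by
    have := fl1_close h.N
    rwa [hs, q2_add] at this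
  have hv : |(C.l ω).v - rd b (C.l ω).v| ≤ q2 b := by
    rw [abs_sub_comm]; exact rd_err _ _
  have hw : |(C.l ω).w - C.ro 1 (b - C.μ) (C.l ω).w| ≤ q2 (b - C.μ) := by
    have := rd_err (b - C.μ) ((C.l ω).w + C.o 1)
    rw [abs_sub_comm] at this
    have e : (C.l ω).w - C.ro 1 (b - C.μ) (C.l ω).w =
        (C.l ω).w + C.o 1 - rd (b - C.μ) ((C.l ω).w + C.o 1) := by
      unfold Pth.ro; ring
    rwa [e]
  have hz : |(C.l ω).dz (C.l ω') (C.s i' ω) +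
      ((C.l ω).v - rd b (C.l ω).v) * ((C.l ω').X (C.s i' ω) - (C.l ω).X (C.s i' ω)) +
      ((C.l ω).w - C.ro 1 (b - C.μ) (C.l ω).w) *
        ((C.l ω').N (C.s i' ω) - (C.l ω).N (C.s i' ω))| ≤ q2 (C.a (j + 1)) * q2 b * q2 b := by
    have := fl1_close h.Z
    have e2 : C.ro 1 (b - C.μ) (C.l ω').w = C.ro 1 (b - C.μ) (C.l ω).w := by
      unfold Pth.ro
      rw [rd_eq h.w]
    have e : C.Zs b (C.s i' ω') ω' - C.Zs b (C.s i' ω) ω =
        (C.l ω).dz (C.l ω') (C.s i' ω) +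
      ((C.l ω).v - rd b (C.l ω).v) * ((C.l ω').X (C.s i' ω) - (C.l ω).X (C.s i' ω)) +
      ((C.l ω).w - C.ro 1 (b - C.μ) (C.l ω).w) *
        ((C.l ω').N (C.s i' ω) - (C.l ω).N (C.s i' ω)) := by
      unfold Pth.Zs Ray.dz
      rw [e2, rd_eq h.v, hs]
      ring
    rw [e] at this
    refine this.trans (le_of_eq ?_)
    rw [q2_add, two_mul, q2_add]
    ring
  have hG := Gs_sub (C := C) (i' := i') (b := b) (ω := ω) (j + 1) (C.l ω')
  have hF := Gs_sub (C := C) (i' := i') (b := b) (ω := ω) j (C.l ω')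
  have hGs : |(Gs C i' (j + 1) b ω).g (C.l ω') (C.s i' ω) -
      (Gs C i' (j + 1) b ω).g (C.l ω) (C.s i' ω)| ≤
      q2 (C.a (j + 1)) * q2 b * q2 (C.R (j + 1) b) := by
    have := fl1_close h.g
    have e1 := h.Gs_eq hj1 h.sl
    unfold Gs at e1 ⊢
    rw [e1, hs] at this
    refine this.trans (le_of_eq ?_)
    rw [q2_add, q2_add]
  rw [h.Gs_eq hjj hr, hs]
  have hL1 := hL.1
  have hL2 := hL.2
  have hR := R_mono C (j := j) (b := b)
  have hdN := dN_real hK (q2_pos b) (q2_pos (C.a (j + 1))) (q2_pos (2 * C.μ)).le hX hN hv hw hz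
    (q2_le (by omega)) (q2_le (by omega)) (rp_le ho hL (Nat.le_succ j)) (co_c1 ho (j + 1))
    (co_cK (by linarith) ho (j + 1)) (co_k ho hj) (co_a ho (j + 1)) (er_le (j + 1)) hG hGs
  have hdz := dz_real hK (q2_pos b) (q2_pos (C.a (j + 1))) hX hv hw hz (m2 := q2 (2 * C.μ))
    (by rw [← q2_add]; exact q2_le (by omega)) (by
      have : q2 (b - C.μ) ≤ q2 0 := q2_le (Nat.zero_le _)
      simpa [q2] using this) hdN
  refine (value_real hK (q2_pos b) (q2_pos (C.rk j)) (q2_pos _) (q2_le (C.ha (Nat.le_succ j)))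
    (q2_pos _) hX hN hdz (by rw [← q2_add]; exact q2_le (R_le C)) (q2_le hR)
    (q2_le (R_le_rf C)) (rd_sub (C.hf (Nat.le_succ j)) _) (co_cK (by linarith) ho j)
    (co_c1 ho (j + 1)) (co_cK (by linarith) ho (j + 1)) (co_k ho hj0) (co_a ho j)
    (co_dk ho hj) (co_da ho) (co_dc ho) (er_le j) (er_le (j + 1)) hF hG hGs).trans (le_of_eq ?_)
  rw [q2_add, q2_add]

end two

/-! ### the chain fact -/

lemma Pt_of {j b i' : ℕ} {ω ω' : Ω}
    (h : (C.A (j + 1) b i' ω', (C.T (j + 1) ω', fl1 (C.a i') (C.t ω'))) =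
      (C.A (j + 1) b i' ω, (C.T (j + 1) ω, fl1 (C.a i') (C.t ω)))) :
    Pt C j b i' ω ω' := by
  simp only [Pth.A, Prod.mk.injEq] at h
  obtain ⟨⟨h1, h2, h3, h4, h5, h6, h7⟩, h8, h9⟩ := h
  exact ⟨h8, h9, h1, h2, h3, h4, h5, h6, h7⟩

/-- **[CHA-T]** chain fact with the letter of the step `j + 1` and the time of the step `i'` only -/
theorem cha_t [Fintype Ω] (P : Law Ω) {K : ℝ} (hK : 1 ≤ K) (hok : ∀ ω, 0 < P.w ω → C.Ok K ω)
    {j b i' : ℕ} (hj : j + 1 ≤ i') (hL : C.Lev j b) :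
    hc P (C.A j b i') (fun ω => (C.A (j + 1) b i' ω, (C.T (j + 1) ω, fl1 (C.a i') (C.t ω)))) ≤
      2 * Real.log ((2 * ⌈118 * K ^ 5⌉₊ + 3 : ℕ) : ℝ) := by
  classical
  set M : ℕ := ⌈118 * K ^ 5⌉₊ with hM
  have hM1 : 118 * K ^ 5 ≤ (M : ℝ) := Nat.le_ceil _
  have hM2 : 24 * K ^ 3 ≤ (M : ℝ) := by
    have h1 : K ^ 3 ≤ K ^ 5 := pow_le_pow_right₀ hK (by norm_num)
    have h2 : 0 ≤ K ^ 5 := by positivity
    linarith
  have ha : C.a j ≤ C.a (j + 1) := C.ha (Nat.le_succ j)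
  set c6 : Ω → ℤ := fun ω => fl1 (C.R j b) (C.sl j b ω + C.o 4) with hc6
  set c7 : Ω → ℤ := fun ω => fl1 (C.a j + b + C.R j b)
    ((Gs C i' j b ω).g (C.l ω) (C.s i' ω)) with hc7
  have hcard : ∀ z : ℤ, (Finset.Icc (z - (M + 1)) (z + (M + 1))).card = 2 * M + 3 := by
    intro z
    rw [Int.card_Icc]
    omega
  have h1 : hc P c6 (fun ω => (C.A (j + 1) b i' ω, (C.T (j + 1) ω, fl1 (C.a i') (C.t ω)))) ≤
      Real.log ((2 * M + 3 : ℕ) : ℝ) := by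
    refine hc_le_log P _ _ _ fun ω hω => ⟨Finset.Icc (c6 ω - (M + 1)) (c6 ω + (M + 1)),
      (hcard _).le, fun ω' hω' e => ?_⟩
    have hp := Pt_of e
    have h2 := hp.sl_close hK (hok ω hω) (hok ω' hω') hL hj
    have h3 : |(C.sl j b ω' + C.o 4) - (C.sl j b ω + C.o 4)| ≤ M * q2 (C.R j b) := by
      rw [add_sub_add_right_eq_sub]
      refine h2.trans ?_
      have := q2_pos (C.R j b)
      gcongr
    have h4 := abs_le.1 (fl1_range h3)
    rw [Finset.mem_Icc]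
    simp only [hc6]
    constructor <;> linarith [h4.1, h4.2]
  have h2 : hc P (C.A j b i') (fun ω => (c6 ω, (C.A (j + 1) b i' ω, (C.T (j + 1) ω, fl1 (C.a i') (C.t ω))))) ≤
      Real.log ((2 * M + 3 : ℕ) : ℝ) := by
    refine hc_le_log P _ _ _ fun ω hω => ⟨(Finset.Icc (c7 ω - (M + 1)) (c7 ω + (M + 1))).image
      (fun z => (fl1 b (C.l ω).v, fl1 (b - C.μ) ((C.l ω).w + C.o 1),
        fl1 (C.a j + b) ((C.l ω).X (C.s i' ω)), fl1 (C.a j + b) ((C.l ω).N (C.s i' ω)),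
        fl1 (C.a j + 2 * b) (C.Zs b (C.s i' ω) ω), c6 ω, z)),
      (Finset.card_image_le).trans (hcard _).le, fun ω' hω' e => ?_⟩
    simp only [Prod.mk.injEq] at e
    obtain ⟨e6, e1, e2, e3⟩ := e
    have hp := Pt_of (C := C) (j := j) (b := b) (i' := i') (ω := ω) (ω' := ω') (Prod.ext e1 (Prod.ext e2 e3))
    have h3 := hp.g_close hK (hok ω hω) hL hj e6
    have h4 : |(Gs C i' j b ω').g (C.l ω') (C.s i' ω') -
        (Gs C i' j b ω).g (C.l ω) (C.s i' ω)| ≤ M * q2 (C.a j + b + C.R j b) := by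
      refine h3.trans ?_
      have := q2_pos (C.a j + b + C.R j b)
      gcongr
    have h5 := abs_le.1 (fl1_range h4)
    rw [Finset.mem_image]
    refine ⟨c7 ω', ?_, ?_⟩
    · rw [Finset.mem_Icc]
      simp only [hc7]
      constructor <;> linarith [h5.1, h5.2]
    · have g1 := hp.v
      have g2 := hp.w
      have g3 := fl1_fl1 (show C.a j + b ≤ C.a (j + 1) + b by omega) hp.X
      have g4 := fl1_fl1 (show C.a j + b ≤ C.a (j + 1) + b by omega) hp.N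
      have g5 := fl1_fl1 (show C.a j + 2 * b ≤ C.a (j + 1) + 2 * b by omega) hp.Z
      unfold Pth.A
      rw [g1, g2, g3, g4, g5]
      simp only [Prod.mk.injEq, true_and]
      exact ⟨e6.symm, rfl⟩
  have h3 := hc_le_add P (C.A j b i') c6 (fun ω => (C.A (j + 1) b i' ω, (C.T (j + 1) ω, fl1 (C.a i') (C.t ω))))
  linarith

/-- two points of one cell of the step `k`, with the same time to `a i'` digits -/
structure Pk (C : Pth Ω τ) (k b i' : ℕ) (ω ω' : Ω) : Prop where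
  T : C.T k ω' = C.T k ω
  tt : fl1 (C.a i') (C.t ω') = fl1 (C.a i') (C.t ω)
  v : fl1 b (C.l ω').v = fl1 b (C.l ω).v
  d : ∀ m, fl1 (C.lv k b m) (C.va k b ω' m + C.o m) =
    fl1 (C.lv k b m) (C.va k b ω m + C.o m)

lemma Pk_of {k b i' : ℕ} {ω ω' : Ω}
    (h : (fl1 (C.a i') (C.t ω'), C.cell k b ω') = (fl1 (C.a i') (C.t ω), C.cell k b ω)) :
    Pk C k b i' ω ω' := by
  simp only [Pth.cell, Pth.dg, Prod.mk.injEq] at h
  obtain ⟨h1, h0, h2, h3⟩ := h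
  exact ⟨h0, h1, h2, fun m => congrFun h3 m⟩

section one

variable {k b i' : ℕ} {ω ω' : Ω}

lemma Pk.vc (h : Pk C k b i' ω ω') (m : Fin 7) :
    |C.va k b ω' m - C.va k b ω m| ≤ q2 (C.lv k b m) := by
  have := fl1_close (h.d m)
  rwa [add_sub_add_right_eq_sub] at this

lemma Pk.sk (h : Pk C k b i' ω ω') : C.s k ω' = C.s k ω := s_eq C h.T

lemma Pk.si (h : Pk C k b i' ω ω') : C.s i' ω' = C.s i' ω := rd_eq h.tt

lemma Pk.X_close (h : Pk C k b i' ω ω') (hL : C.Lev k b) (hk : k ≤ i') :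
    |(C.l ω').X (C.s i' ω') - (C.l ω).X (C.s i' ω)| ≤
      ((2 * 2 ^ C.μ : ℕ) : ℝ) * q2 (C.a k + b) := by
  have h0 : |(C.l ω').X (C.s k ω') - (C.l ω).X (C.s k ω)| ≤ q2 (C.a k + b - C.μ) := h.vc 0
  have hv := fl1_close h.v
  have hd := ds_le C hk ω
  rw [h.sk] at h0
  rw [h.si]
  have e : (C.l ω').X (C.s i' ω) - (C.l ω).X (C.s i' ω) =
      ((C.l ω').X (C.s k ω) - (C.l ω).X (C.s k ω)) +
        (C.s i' ω - C.s k ω) * ((C.l ω').v - (C.l ω).v) := by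
    unfold Ray.X; ring
  rw [e]
  refine (addb h0 (mulb hd hv)).trans ?_
  have hL1 := hL.1
  rw [q2_shift (by omega), ← q2_add]
  push_cast
  have h1 : (1 : ℝ) ≤ 2 ^ C.μ := one_le_pow₀ (by norm_num)
  have h2 := q2_pos (C.a k + b)
  nlinarith

lemma Pk.N_close (h : Pk C k b i' ω ω') (hL : C.Lev k b) (hk : k ≤ i') :
    |(C.l ω').N (C.s i' ω') - (C.l ω).N (C.s i' ω)| ≤
      ((2 * 2 ^ C.μ : ℕ) : ℝ) * q2 (C.a k + b) := by
  have h0 : |(C.l ω').N (C.s k ω') - (C.l ω).N (C.s k ω)| ≤ q2 (C.a k + b - C.μ) := h.vc 2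
  have hw : |(C.l ω').w - (C.l ω).w| ≤ q2 (b - C.μ) := h.vc 1
  have hd := ds_le C hk ω
  rw [h.sk] at h0
  rw [h.si]
  have e : (C.l ω').N (C.s i' ω) - (C.l ω).N (C.s i' ω) =
      ((C.l ω').N (C.s k ω) - (C.l ω).N (C.s k ω)) +
        (C.s i' ω - C.s k ω) * ((C.l ω').w - (C.l ω).w) := by
    unfold Ray.N; ring
  rw [e]
  refine (addb h0 (mulb hd hw)).trans ?_
  have hL1 := hL.1
  rw [q2_shift (show C.μ ≤ C.a k + b by omega), q2_shift (show C.μ ≤ b by omega), q2_add]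
  push_cast
  apply le_of_eq
  ring

lemma Pk.Z_close (h : Pk C k b i' ω ω') (hL : C.Lev k b) (hk : k ≤ i') :
    |C.Zs b (C.s i' ω') ω' - C.Zs b (C.s i' ω) ω| ≤
      ((2 * 2 ^ (3 * C.μ) : ℕ) : ℝ) * q2 (C.a k + 2 * b) := by
  have h0 : |C.Zs b (C.s k ω') ω' - C.Zs b (C.s k ω) ω| ≤ q2 (C.a k + 2 * b - 3 * C.μ) := h.vc 3
  have hd := ds_le C hk ω
  rw [h.sk] at h0
  rw [h.si]
  have ew : C.ro 1 (b - C.μ) (C.l ω').w = C.ro 1 (b - C.μ) (C.l ω).w := by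
    unfold Pth.ro
    have := h.d 1
    have h1 : fl1 (b - C.μ) ((C.l ω').w + C.o 1) = fl1 (b - C.μ) ((C.l ω).w + C.o 1) := this
    rw [rd_eq h1]
  have ev : rd b (C.l ω').v = rd b (C.l ω).v := rd_eq h.v
  have hv : |(C.l ω).v - rd b (C.l ω).v| ≤ q2 b := by
    rw [abs_sub_comm]; exact rd_err _ _
  have hv' : |(C.l ω').v - rd b (C.l ω).v| ≤ q2 b := by
    rw [abs_sub_comm, ← ev]; exact rd_err _ _
  have hw := w_err (C := C) (b := b) ω
  have hw' := w_err (C := C) (b := b) ω'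
  rw [ew] at hw'
  have e : C.Zs b (C.s i' ω) ω' - C.Zs b (C.s i' ω) ω =
      (C.Zs b (C.s k ω) ω' - C.Zs b (C.s k ω) ω) + (C.s i' ω - C.s k ω) *
        ((((C.l ω').v - rd b (C.l ω).v) ^ 2 / 2 - ((C.l ω).v - rd b (C.l ω).v) ^ 2 / 2) +
        (((C.l ω').w - C.ro 1 (b - C.μ) (C.l ω).w) ^ 2 / 2 -
          ((C.l ω).w - C.ro 1 (b - C.μ) (C.l ω).w) ^ 2 / 2)) := by
    unfold Pth.Zs Ray.X Ray.N Ray.Z
    rw [ew, ev]
    ring
  rw [e]
  refine (addb h0 (mulb hd (addb (sq_half_le hv' hv) (sq_half_le hw' hw)))).trans ?_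
  have hL1 := hL.1
  rw [q2_shift (show 3 * C.μ ≤ C.a k + 2 * b by omega), q2_shift (show C.μ ≤ b by omega), q2_add,
    two_mul b, q2_add]
  push_cast
  have h1 : (1 : ℝ) ≤ 2 ^ C.μ := one_le_pow₀ (by norm_num)
  have h2 := q2_pos (C.a k)
  have h3 := q2_pos b
  have h4 : (2 : ℝ) ^ (3 * C.μ) = (2 ^ C.μ) ^ 3 := by rw [mul_comm 3, pow_mul]
  rw [h4]
  set u : ℝ := 2 ^ C.μ
  have h5 : 0 < q2 (C.a k) * (q2 b * q2 b) := by positivity
  have h6 : (1 : ℝ) / 2 + u ^ 2 / 2 ≤ u ^ 3 := by nlinarith [sq_nonneg u, sq_nonneg (u - 1)]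
  calc u ^ 3 * (q2 (C.a k) * (q2 b * q2 b)) + q2 (C.a k) * (q2 b ^ 2 / 2 + (u * q2 b) ^ 2 / 2)
      = u ^ 3 * (q2 (C.a k) * (q2 b * q2 b)) +
        (1 / 2 + u ^ 2 / 2) * (q2 (C.a k) * (q2 b * q2 b)) := by ring
    _ ≤ u ^ 3 * (q2 (C.a k) * (q2 b * q2 b)) + u ^ 3 * (q2 (C.a k) * (q2 b * q2 b)) := by
        gcongr
    _ = _ := by ring

lemma Pk.sl_close (h : Pk C k b i' ω ω') (hL : C.Lev k b) :
    |(C.sl k b ω' + C.o 4) - (C.sl k b ω + C.o 4)| ≤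
      ((2 ^ (3 * C.μ) : ℕ) : ℝ) * q2 (C.R k b) := by
  have h0 : |C.sl k b ω' - C.sl k b ω| ≤ q2 (C.R k b - 3 * C.μ) := h.vc 4
  rw [add_sub_add_right_eq_sub]
  have hL2 := hL.2
  rw [q2_shift (by omega)] at h0
  push_cast
  exact h0

lemma Pk.g_close (h : Pk C k b i' ω ω') (hL : C.Lev k b) (hk : k ≤ i')
    (hr : fl1 (C.R k b) (C.sl k b ω' + C.o 4) = fl1 (C.R k b) (C.sl k b ω + C.o 4)) :
    |(Gs C i' k b ω').g (C.l ω') (C.s i' ω') - (Gs C i' k b ω).g (C.l ω) (C.s i' ω)| ≤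
      ((4 * 2 ^ (7 * C.μ) : ℕ) : ℝ) * q2 (C.a k + b + C.R k b) := by
  have h5 : |(C.Fr k b (C.R k b - 3 * C.μ) ω').gd (C.l ω') (C.s k ω') -
      (C.Fr k b (C.R k b - 3 * C.μ) ω).gd (C.l ω) (C.s k ω)| ≤ q2 (C.R k b + b - 5 * C.μ) :=
    h.vc 5
  have h6 : |(C.Fr k b (C.R k b - 3 * C.μ) ω').g (C.l ω') (C.s k ω') -
      (C.Fr k b (C.R k b - 3 * C.μ) ω).g (C.l ω) (C.s k ω)| ≤
        q2 (C.a k + b + C.R k b - 7 * C.μ) := h.vc 6
  have hX := h.X_close hL hk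
  have hd := ds_le C hk ω
  have er : rh C k b ω' = rh C k b ω := by
    unfold rh Pth.ro
    rw [rd_eq hr, rd_eq (fl1_fl1 (Nat.sub_le _ _) hr)]
  have hrh : |rh C k b ω| ≤ q2 (C.R k b - 3 * C.μ) := by
    have := rd_sub (Nat.sub_le (C.R k b) (3 * C.μ)) (C.sl k b ω + C.o 4)
    have e : rh C k b ω = rd (C.R k b) (C.sl k b ω + C.o 4) -
        rd (C.R k b - 3 * C.μ) (C.sl k b ω + C.o 4) := by
      unfold rh Pth.ro; ring
    rwa [e]
  rw [Gs_split, Gs_split, er]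
  have e : (C.Fr k b (C.R k b - 3 * C.μ) ω').g (C.l ω') (C.s k ω') +
      (C.s i' ω' - C.s k ω') * (C.Fr k b (C.R k b - 3 * C.μ) ω').gd (C.l ω') (C.s k ω') -
      rh C k b ω * (C.l ω').X (C.s i' ω') -
      ((C.Fr k b (C.R k b - 3 * C.μ) ω).g (C.l ω) (C.s k ω) +
      (C.s i' ω - C.s k ω) * (C.Fr k b (C.R k b - 3 * C.μ) ω).gd (C.l ω) (C.s k ω) -
      rh C k b ω * (C.l ω).X (C.s i' ω)) =
      ((C.Fr k b (C.R k b - 3 * C.μ) ω').g (C.l ω') (C.s k ω') -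
      (C.Fr k b (C.R k b - 3 * C.μ) ω).g (C.l ω) (C.s k ω)) +
      (C.s i' ω - C.s k ω) * ((C.Fr k b (C.R k b - 3 * C.μ) ω').gd (C.l ω') (C.s k ω') -
        (C.Fr k b (C.R k b - 3 * C.μ) ω).gd (C.l ω) (C.s k ω)) -
      rh C k b ω * ((C.l ω').X (C.s i' ω') - (C.l ω).X (C.s i' ω)) := by
    rw [h.sk, h.si]
    ring
  rw [e]
  refine (subb (addb h6 (mulb hd h5)) (mulb hrh hX)).trans ?_
  have hL1 := hL.1
  have hL2 := hL.2
  rw [q2_shift (show 7 * C.μ ≤ C.a k + b + C.R k b by omega),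
    q2_shift (show 5 * C.μ ≤ C.R k b + b by omega), q2_shift (show 3 * C.μ ≤ C.R k b by omega),
    q2_add, q2_add, q2_add]
  push_cast
  have h1 : (1 : ℝ) ≤ 2 ^ C.μ := one_le_pow₀ (by norm_num)
  have e3 : (2 : ℝ) ^ (3 * C.μ) = (2 ^ C.μ) ^ 3 := by rw [mul_comm 3, pow_mul]
  have e5 : (2 : ℝ) ^ (5 * C.μ) = (2 ^ C.μ) ^ 5 := by rw [mul_comm 5, pow_mul]
  have e7 : (2 : ℝ) ^ (7 * C.μ) = (2 ^ C.μ) ^ 7 := by rw [mul_comm 7, pow_mul]
  rw [e3, e5, e7]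
  set u : ℝ := 2 ^ C.μ
  have p1 := q2_pos (C.a k)
  have p2 := q2_pos b
  have p3 := q2_pos (C.R k b)
  have h57 : u ^ 5 ≤ u ^ 7 := pow_le_pow_right₀ h1 (by norm_num)
  have h47 : u ^ 4 ≤ u ^ 7 := pow_le_pow_right₀ h1 (by norm_num)
  set Q : ℝ := q2 (C.a k) * q2 b * q2 (C.R k b) with hQ
  have hQ0 : 0 < Q := by positivity
  calc _ = u ^ 7 * Q + u ^ 5 * Q + 2 * u ^ 4 * Q := by rw [hQ]; ring
    _ ≤ u ^ 7 * Q + u ^ 7 * Q + 2 * u ^ 7 * Q := by gcongr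
    _ = _ := by ring

end one

/-- **[JU-T]** given the time to `a i'` digits, the nominal position of the step `k` has a bounded number of
possibilities inside a cell of the step `k` -/
theorem ju_t [Fintype Ω] (P : Law Ω) {k b i' : ℕ} (hk : k ≤ i') (hL : C.Lev k b) :
    hc P (C.A k b i') (fun ω => (fl1 (C.a i') (C.t ω), C.cell k b ω)) ≤
      15 * C.μ * Real.log 2 + Real.log 18865 := by
  classical
  set c6 : Ω → ℤ := fun ω => fl1 (C.R k b) (C.sl k b ω + C.o 4) with hc6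
  set M1 : ℕ := 2 * 2 ^ C.μ with hM1
  set M3 : ℕ := 2 * 2 ^ (3 * C.μ) with hM3
  set M4 : ℕ := 2 ^ (3 * C.μ) with hM4
  set M7 : ℕ := 4 * 2 ^ (7 * C.μ) with hM7
  have hcard : ∀ (M : ℕ) (z : ℤ), (Finset.Icc (z - (M + 1)) (z + (M + 1))).card = 2 * M + 3 := by
    intro M z
    rw [Int.card_Icc]
    omega
  have h1 : hc P c6 (fun ω => (fl1 (C.a i') (C.t ω), C.cell k b ω)) ≤ Real.log ((2 * M4 + 3 : ℕ) : ℝ) := by
    refine hc_le_log P _ _ _ fun ω _ => ⟨Finset.Icc (c6 ω - (M4 + 1)) (c6 ω + (M4 + 1)),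
      (hcard M4 _).le, fun ω' _ e => ?_⟩
    have h3 := (Pk_of e).sl_close hL
    have h4 := abs_le.1 (fl1_range h3)
    rw [Finset.mem_Icc]
    simp only [hc6]
    constructor <;> linarith [h4.1, h4.2]
  have h2 : hc P (C.A k b i') (fun ω => (c6 ω, (fl1 (C.a i') (C.t ω), C.cell k b ω))) ≤
      Real.log (((2 * M1 + 3) * ((2 * M1 + 3) * ((2 * M3 + 3) * (2 * M7 + 3))) : ℕ) : ℝ) := by
    refine hc_le_log P _ _ _ fun ω _ => ⟨
      ((Finset.Icc (fl1 (C.a k + b) ((C.l ω).X (C.s i' ω)) - (M1 + 1))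
          (fl1 (C.a k + b) ((C.l ω).X (C.s i' ω)) + (M1 + 1))) ×ˢ
        ((Finset.Icc (fl1 (C.a k + b) ((C.l ω).N (C.s i' ω)) - (M1 + 1))
          (fl1 (C.a k + b) ((C.l ω).N (C.s i' ω)) + (M1 + 1))) ×ˢ
        ((Finset.Icc (fl1 (C.a k + 2 * b) (C.Zs b (C.s i' ω) ω) - (M3 + 1))
          (fl1 (C.a k + 2 * b) (C.Zs b (C.s i' ω) ω) + (M3 + 1))) ×ˢ
        (Finset.Icc (fl1 (C.a k + b + C.R k b) ((Gs C i' k b ω).g (C.l ω) (C.s i' ω)) - (M7 + 1))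
          (fl1 (C.a k + b + C.R k b) ((Gs C i' k b ω).g (C.l ω) (C.s i' ω)) + (M7 + 1)))))).image
      (fun z => (fl1 b (C.l ω).v, fl1 (b - C.μ) ((C.l ω).w + C.o 1), z.1, z.2.1, z.2.2.1, c6 ω,
        z.2.2.2)), ?_, fun ω' _ e => ?_⟩
    · refine Finset.card_image_le.trans ?_
      rw [Finset.card_product, Finset.card_product, Finset.card_product, hcard, hcard, hcard,
        hcard]
    · simp only [Prod.mk.injEq] at e
      obtain ⟨e6, e1, e2⟩ := e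
      have hp : Pk C k b i' ω ω' := Pk_of (Prod.ext e1 e2)
      have hX := abs_le.1 (fl1_range (hp.X_close hL hk))
      have hN := abs_le.1 (fl1_range (hp.N_close hL hk))
      have hZ := abs_le.1 (fl1_range (hp.Z_close hL hk))
      have hG := abs_le.1 (fl1_range (hp.g_close hL hk e6))
      have hw : fl1 (b - C.μ) ((C.l ω').w + C.o 1) = fl1 (b - C.μ) ((C.l ω).w + C.o 1) :=
        hp.d 1
      rw [Finset.mem_image]
      refine ⟨(fl1 (C.a k + b) ((C.l ω').X (C.s i' ω')), fl1 (C.a k + b) ((C.l ω').N (C.s i' ω')),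
        fl1 (C.a k + 2 * b) (C.Zs b (C.s i' ω') ω'),
        fl1 (C.a k + b + C.R k b) ((Gs C i' k b ω').g (C.l ω') (C.s i' ω'))), ?_, ?_⟩
      · simp only [Finset.mem_product, Finset.mem_Icc]
        refine ⟨⟨?_, ?_⟩, ⟨?_, ?_⟩, ⟨?_, ?_⟩, ⟨?_, ?_⟩⟩ <;>
          linarith [hX.1, hX.2, hN.1, hN.2, hZ.1, hZ.2, hG.1, hG.2]
      · unfold Pth.A
        rw [hp.v, hw]
        simp only [Prod.mk.injEq, true_and]
        exact ⟨e6.symm, rfl⟩
  have h3 := hc_le_add P (C.A k b i') c6 (fun ω => (fl1 (C.a i') (C.t ω), C.cell k b ω))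
  have hu : ∀ m : ℕ, 1 ≤ 2 ^ (m * C.μ) := fun m => Nat.one_le_two_pow
  have h4 : Real.log ((2 * M4 + 3 : ℕ) : ℝ) ≤ 3 * C.μ * Real.log 2 + Real.log 5 := by
    have e : (3 : ℝ) * C.μ * Real.log 2 + Real.log 5 = Real.log ((2 : ℝ) ^ (3 * C.μ) * 5) := by
      rw [Real.log_mul (by positivity) (by norm_num), Real.log_pow]
      push_cast
      ring
    rw [e]
    apply Real.log_le_log (by positivity)
    have := hu 3
    have h5 : 2 * M4 + 3 ≤ 2 ^ (3 * C.μ) * 5 := by rw [hM4]; omega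
    exact_mod_cast h5
  have h5 : Real.log (((2 * M1 + 3) * ((2 * M1 + 3) * ((2 * M3 + 3) * (2 * M7 + 3))) : ℕ) : ℝ) ≤
      12 * C.μ * Real.log 2 + Real.log 3773 := by
    have e : (12 : ℝ) * C.μ * Real.log 2 + Real.log 3773 =
        Real.log ((2 : ℝ) ^ (12 * C.μ) * 3773) := by
      rw [Real.log_mul (by positivity) (by norm_num), Real.log_pow]
      push_cast
      ring
    rw [e]
    apply Real.log_le_log (by positivity)
    have a1 : 2 * M1 + 3 ≤ 7 * 2 ^ C.μ := by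
      have := hu 1
      rw [one_mul] at this
      rw [hM1]; omega
    have a3 : 2 * M3 + 3 ≤ 7 * 2 ^ (3 * C.μ) := by
      have := hu 3
      rw [hM3]; omega
    have a7 : 2 * M7 + 3 ≤ 11 * 2 ^ (7 * C.μ) := by
      have := hu 7
      rw [hM7]; omega
    have h6 : (2 * M1 + 3) * ((2 * M1 + 3) * ((2 * M3 + 3) * (2 * M7 + 3))) ≤
        2 ^ (12 * C.μ) * 3773 := by
      calc _ ≤ (7 * 2 ^ C.μ) * ((7 * 2 ^ C.μ) * ((7 * 2 ^ (3 * C.μ)) * (11 * 2 ^ (7 * C.μ)))) := by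
            gcongr
        _ = _ := by
            have : 2 ^ (12 * C.μ) = 2 ^ C.μ * (2 ^ C.μ * (2 ^ (3 * C.μ) * 2 ^ (7 * C.μ))) := by
              rw [← pow_add, ← pow_add, ← pow_add]
              congr 1
              ring
            rw [this]
            ring
    exact_mod_cast h6
  have h6 : Real.log 18865 = Real.log 5 + Real.log 3773 := by
    rw [← Real.log_mul (by norm_num) (by norm_num)]
    norm_num
  rw [h6]
  linarith

end Vale.Agent.P106.U.H84
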