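import Vale.Agent.P106.U.H84.Cha

/-!
# P106 / U : the nominal position inside a cell (helper84)

`ju` : for `k ≤ i'` the nominal position `A k b i'` has at most `18865 * 2 ^ (15 μ)` possibilities inside a cell
of the step `k`, if the letter `T i'` is given:
`H(A k b i' | T i', cell k b) ≤ 15 μ log 2 + log 18865`.
-/

set_option autoImplicit false

namespace Vale.Agent.P106.U.H84

open Finset Vale.Agent.P127 Vale.Agent.P127.Stk
open Vale.Agent.P127.U.CellD (q2 rd q2_pos q2_add q2_le rd_le lt_rd rd_err rd_mono rd_sub fl1_fl1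
  q2_mul_pow div_pow_eq)
open Vale.Agent.P106.U.Cell

lemma q2_shift {L m : ℕ} (h : m ≤ L) : q2 (L - m) = 2 ^ m * q2 L := by
  have e : q2 L = q2 (L - m) * q2 m := by
    rw [← q2_add]; congr 1; omega
  rw [e]
  have := q2_mul_pow m
  calc q2 (L - m) = q2 (L - m) * (2 ^ m * q2 m) := by rw [this, mul_one]
    _ = _ := by ring

variable {Ω τ : Type} {C : Pth Ω τ}

/-- two points of one cell of the step `k`, with the same letter of the step `i'` -/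
structure Pj (C : Pth Ω τ) (k b i' : ℕ) (ω ω' : Ω) : Prop where
  T : C.T i' ω' = C.T i' ω
  v : fl1 b (C.l ω').v = fl1 b (C.l ω).v
  d : ∀ m, fl1 (C.lv k b m) (C.va k b ω' m + C.o m) =
    fl1 (C.lv k b m) (C.va k b ω m + C.o m)

lemma Pj_of {k b i' : ℕ} {ω ω' : Ω}
    (h : (C.T i' ω', C.cell k b ω') = (C.T i' ω, C.cell k b ω)) : Pj C k b i' ω ω' := by
  simp only [Pth.cell, Pth.dg, Prod.mk.injEq] at h
  obtain ⟨h1, -, h2, h3⟩ := h
  exact ⟨h1, h2, fun m => congrFun h3 m⟩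

section one

variable {k b i' : ℕ} {ω ω' : Ω}

lemma Pj.vc (h : Pj C k b i' ω ω') (m : Fin 7) :
    |C.va k b ω' m - C.va k b ω m| ≤ q2 (C.lv k b m) := by
  have := fl1_close (h.d m)
  rwa [add_sub_add_right_eq_sub] at this

lemma Pj.s' (h : Pj C k b i' ω ω') {j : ℕ} (hj : j ≤ i') : C.s j ω' = C.s j ω :=
  s_eq C (T_eq C h.T hj)

lemma Pj.X_close (h : Pj C k b i' ω ω') (hL : C.Lev k b) (hk : k ≤ i') :
    |(C.l ω').X (C.s i' ω') - (C.l ω).X (C.s i' ω)| ≤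
      ((2 * 2 ^ C.μ : ℕ) : ℝ) * q2 (C.a k + b) := by
  have h0 : |(C.l ω').X (C.s k ω') - (C.l ω).X (C.s k ω)| ≤ q2 (C.a k + b - C.μ) := h.vc 0
  have hv := fl1_close h.v
  have hd := ds_le C hk ω
  rw [h.s' hk] at h0
  rw [h.s' le_rfl]
  have e : (C.l ω').X (C.s i' ω) - (C.l ω).X (C.s i' ω) =
      ((C.l ω').X (C.s k ω) - (C.l ω).X (C.s k ω)) +
        (C.s i' ω - C.s k ω) * ((C.l ω').v - (C.l ω).v) := by
    unfold Ray.X; ring
  rw [e]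
  refine (addb h0 (mulb hd hv)).trans ?_
  have hL1 := hL.1
  rw [q2_shift (by omega), ← q2_add]
  push_cast
  have h1 : (1 : ℝ) ≤ 2 ^ C.μ := one_le_pow₀ (by norm_num)
  have h2 := q2_pos (C.a k + b)
  nlinarith

lemma Pj.N_close (h : Pj C k b i' ω ω') (hL : C.Lev k b) (hk : k ≤ i') :
    |(C.l ω').N (C.s i' ω') - (C.l ω).N (C.s i' ω)| ≤
      ((2 * 2 ^ C.μ : ℕ) : ℝ) * q2 (C.a k + b) := by
  have h0 : |(C.l ω').N (C.s k ω') - (C.l ω).N (C.s k ω)| ≤ q2 (C.a k + b - C.μ) := h.vc 2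
  have hw : |(C.l ω').w - (C.l ω).w| ≤ q2 (b - C.μ) := h.vc 1
  have hd := ds_le C hk ω
  rw [h.s' hk] at h0
  rw [h.s' le_rfl]
  have e : (C.l ω').N (C.s i' ω) - (C.l ω).N (C.s i' ω) =
      ((C.l ω').N (C.s k ω) - (C.l ω).N (C.s k ω)) +
        (C.s i' ω - C.s k ω) * ((C.l ω').w - (C.l ω).w) := by
    unfold Ray.N; ring
  rw [e]
  refine (addb h0 (mulb hd hw)).trans ?_
  have hL1 := hL.1
  rw [q2_shift (show C.μ ≤ C.a k + b by omega), q2_shift (show C.μ ≤ b by omega), q2_add]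
  push_cast
  apply le_of_eq
  ring

lemma sq_half_le {x y q : ℝ} (hx : |x| ≤ q) (hy : |y| ≤ q) : |x ^ 2 / 2 - y ^ 2 / 2| ≤ q ^ 2 / 2 := by
  have h1 : x ^ 2 ≤ q ^ 2 := by rw [← sq_abs]; gcongr
  have h2 : y ^ 2 ≤ q ^ 2 := by rw [← sq_abs y]; gcongr
  rw [abs_le]
  constructor
  · have := sq_nonneg x
    linarith
  · have := sq_nonneg y
    linarith

lemma w_err (ω : Ω) : |(C.l ω).w - C.ro 1 (b - C.μ) (C.l ω).w| ≤ q2 (b - C.μ) := by
  have := rd_err (b - C.μ) ((C.l ω).w + C.o 1)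
  rw [abs_sub_comm] at this
  have e : (C.l ω).w - C.ro 1 (b - C.μ) (C.l ω).w =
      (C.l ω).w + C.o 1 - rd (b - C.μ) ((C.l ω).w + C.o 1) := by
    unfold Pth.ro; ring
  rwa [e]

lemma Pj.Z_close (h : Pj C k b i' ω ω') (hL : C.Lev k b) (hk : k ≤ i') :
    |C.Zs b (C.s i' ω') ω' - C.Zs b (C.s i' ω) ω| ≤
      ((2 * 2 ^ (3 * C.μ) : ℕ) : ℝ) * q2 (C.a k + 2 * b) := by
  have h0 : |C.Zs b (C.s k ω') ω' - C.Zs b (C.s k ω) ω| ≤ q2 (C.a k + 2 * b - 3 * C.μ) := h.vc 3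
  have hd := ds_le C hk ω
  rw [h.s' hk] at h0
  rw [h.s' le_rfl]
  have ew : C.ro 1 (b - C.μ) (C.l ω').w = C.ro 1 (b - C.μ) (C.l ω).w := by
    unfold Pth.ro
    have := h.d 1
    have h1 : fl1 (b - C.μ) ((C.l ω').w + C.o 1) = fl1 (b - C.μ) ((C.l ω).w + C.o 1) := this
    rw [rd_eq h1]
  have ev : rd b (C.l ω').v = rd b (C.l ω).v := rd_eq h.v
  have hv : |(C.l ω).v - rd b (C.l ω).v| ≤ q2 b := by
    rw [abs_sub_comm]; exact rd_err _ _
  have hv' : |(C.l ω').v - rd b (C.l ω).v| ≤ q2 b := by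
    rw [abs_sub_comm, ← ev]; exact rd_err _ _
  have hw := w_err (C := C) (b := b) ω
  have hw' := w_err (C := C) (b := b) ω'
  rw [ew] at hw'
  have e : C.Zs b (C.s i' ω) ω' - C.Zs b (C.s i' ω) ω =
      (C.Zs b (C.s k ω) ω' - C.Zs b (C.s k ω) ω) + (C.s i' ω - C.s k ω) *
        ((((C.l ω').v - rd b (C.l ω).v) ^ 2 / 2 - ((C.l ω).v - rd b (C.l ω).v) ^ 2 / 2) +
        (((C.l ω').w - C.ro 1 (b - C.μ) (C.l ω).w) ^ 2 / 2 -
          ((C.l ω).w - C.ro 1 (b - C.μ) (C.l ω).w) ^ 2 / 2)) := by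
    unfold Pth.Zs Ray.X Ray.N Ray.Z
    rw [ew, ev]
    ring
  rw [e]
  refine (addb h0 (mulb hd (addb (sq_half_le hv' hv) (sq_half_le hw' hw)))).trans ?_
  have hL1 := hL.1
  rw [q2_shift (show 3 * C.μ ≤ C.a k + 2 * b by omega), q2_shift (show C.μ ≤ b by omega), q2_add,
    two_mul b, q2_add]
  push_cast
  have h1 : (1 : ℝ) ≤ 2 ^ C.μ := one_le_pow₀ (by norm_num)
  have h2 := q2_pos (C.a k)
  have h3 := q2_pos b
  have h4 : (2 : ℝ) ^ (3 * C.μ) = (2 ^ C.μ) ^ 3 := by rw [mul_comm 3, pow_mul]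
  rw [h4]
  set u : ℝ := 2 ^ C.μ
  have h5 : 0 < q2 (C.a k) * (q2 b * q2 b) := by positivity
  have h6 : (1 : ℝ) / 2 + u ^ 2 / 2 ≤ u ^ 3 := by nlinarith [sq_nonneg u, sq_nonneg (u - 1)]
  calc u ^ 3 * (q2 (C.a k) * (q2 b * q2 b)) + q2 (C.a k) * (q2 b ^ 2 / 2 + (u * q2 b) ^ 2 / 2)
      = u ^ 3 * (q2 (C.a k) * (q2 b * q2 b)) +
        (1 / 2 + u ^ 2 / 2) * (q2 (C.a k) * (q2 b * q2 b)) := by ring
    _ ≤ u ^ 3 * (q2 (C.a k) * (q2 b * q2 b)) + u ^ 3 * (q2 (C.a k) * (q2 b * q2 b)) := by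
        gcongr
    _ = _ := by ring

lemma Pj.sl_close (h : Pj C k b i' ω ω') (hL : C.Lev k b) :
    |(C.sl k b ω' + C.o 4) - (C.sl k b ω + C.o 4)| ≤
      ((2 ^ (3 * C.μ) : ℕ) : ℝ) * q2 (C.R k b) := by
  have h0 : |C.sl k b ω' - C.sl k b ω| ≤ q2 (C.R k b - 3 * C.μ) := h.vc 4
  rw [add_sub_add_right_eq_sub]
  have hL2 := hL.2
  rw [q2_shift (by omega)] at h0
  push_cast
  exact h0

/-- difference of two roundings of the slope -/
noncomputable def rh (C : Pth Ω τ) (k b : ℕ) (ω : Ω) : ℝ :=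
  C.ro 4 (C.R k b) (C.sl k b ω) - C.ro 4 (C.R k b - 3 * C.μ) (C.sl k b ω)

lemma Gs_split (ω : Ω) : (Gs C i' k b ω).g (C.l ω) (C.s i' ω) =
    (C.Fr k b (C.R k b - 3 * C.μ) ω).g (C.l ω) (C.s k ω) +
      (C.s i' ω - C.s k ω) * (C.Fr k b (C.R k b - 3 * C.μ) ω).gd (C.l ω) (C.s k ω) -
      rh C k b ω * (C.l ω).X (C.s i' ω) := by
  unfold Gs rh Pth.Fr Fu.sh Fu.g Fu.gd Ray.X Ray.N Ray.Z
  ring

lemma Pj.g_close (h : Pj C k b i' ω ω') (hL : C.Lev k b) (hk : k ≤ i')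
    (hr : fl1 (C.R k b) (C.sl k b ω' + C.o 4) = fl1 (C.R k b) (C.sl k b ω + C.o 4)) :
    |(Gs C i' k b ω').g (C.l ω') (C.s i' ω') - (Gs C i' k b ω).g (C.l ω) (C.s i' ω)| ≤
      ((4 * 2 ^ (7 * C.μ) : ℕ) : ℝ) * q2 (C.a k + b + C.R k b) := by
  have h5 : |(C.Fr k b (C.R k b - 3 * C.μ) ω').gd (C.l ω') (C.s k ω') -
      (C.Fr k b (C.R k b - 3 * C.μ) ω).gd (C.l ω) (C.s k ω)| ≤ q2 (C.R k b + b - 5 * C.μ) :=
    h.vc 5
  have h6 : |(C.Fr k b (C.R k b - 3 * C.μ) ω').g (C.l ω') (C.s k ω') -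
      (C.Fr k b (C.R k b - 3 * C.μ) ω).g (C.l ω) (C.s k ω)| ≤
        q2 (C.a k + b + C.R k b - 7 * C.μ) := h.vc 6
  have hX := h.X_close hL hk
  have hd := ds_le C hk ω
  have er : rh C k b ω' = rh C k b ω := by
    unfold rh Pth.ro
    rw [rd_eq hr, rd_eq (fl1_fl1 (Nat.sub_le _ _) hr)]
  have hrh : |rh C k b ω| ≤ q2 (C.R k b - 3 * C.μ) := by
    have := rd_sub (Nat.sub_le (C.R k b) (3 * C.μ)) (C.sl k b ω + C.o 4)
    have e : rh C k b ω = rd (C.R k b) (C.sl k b ω + C.o 4) -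
        rd (C.R k b - 3 * C.μ) (C.sl k b ω + C.o 4) := by
      unfold rh Pth.ro; ring
    rwa [e]
  rw [Gs_split, Gs_split, er]
  have e : (C.Fr k b (C.R k b - 3 * C.μ) ω').g (C.l ω') (C.s k ω') +
      (C.s i' ω' - C.s k ω') * (C.Fr k b (C.R k b - 3 * C.μ) ω').gd (C.l ω') (C.s k ω') -
      rh C k b ω * (C.l ω').X (C.s i' ω') -
      ((C.Fr k b (C.R k b - 3 * C.μ) ω).g (C.l ω) (C.s k ω) +
      (C.s i' ω - C.s k ω) * (C.Fr k b (C.R k b - 3 * C.μ) ω).gd (C.l ω) (C.s k ω) -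
      rh C k b ω * (C.l ω).X (C.s i' ω)) =
      ((C.Fr k b (C.R k b - 3 * C.μ) ω').g (C.l ω') (C.s k ω') -
      (C.Fr k b (C.R k b - 3 * C.μ) ω).g (C.l ω) (C.s k ω)) +
      (C.s i' ω - C.s k ω) * ((C.Fr k b (C.R k b - 3 * C.μ) ω').gd (C.l ω') (C.s k ω') -
        (C.Fr k b (C.R k b - 3 * C.μ) ω).gd (C.l ω) (C.s k ω)) -
      rh C k b ω * ((C.l ω').X (C.s i' ω') - (C.l ω).X (C.s i' ω)) := by
    rw [h.s' hk, h.s' (le_refl i')]
    ring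
  rw [e]
  refine (subb (addb h6 (mulb hd h5)) (mulb hrh hX)).trans ?_
  have hL1 := hL.1
  have hL2 := hL.2
  rw [q2_shift (show 7 * C.μ ≤ C.a k + b + C.R k b by omega),
    q2_shift (show 5 * C.μ ≤ C.R k b + b by omega), q2_shift (show 3 * C.μ ≤ C.R k b by omega),
    q2_add, q2_add, q2_add]
  push_cast
  have h1 : (1 : ℝ) ≤ 2 ^ C.μ := one_le_pow₀ (by norm_num)
  have e3 : (2 : ℝ) ^ (3 * C.μ) = (2 ^ C.μ) ^ 3 := by rw [mul_comm 3, pow_mul]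
  have e5 : (2 : ℝ) ^ (5 * C.μ) = (2 ^ C.μ) ^ 5 := by rw [mul_comm 5, pow_mul]
  have e7 : (2 : ℝ) ^ (7 * C.μ) = (2 ^ C.μ) ^ 7 := by rw [mul_comm 7, pow_mul]
  rw [e3, e5, e7]
  set u : ℝ := 2 ^ C.μ
  have p1 := q2_pos (C.a k)
  have p2 := q2_pos b
  have p3 := q2_pos (C.R k b)
  have h57 : u ^ 5 ≤ u ^ 7 := pow_le_pow_right₀ h1 (by norm_num)
  have h47 : u ^ 4 ≤ u ^ 7 := pow_le_pow_right₀ h1 (by norm_num)
  set Q : ℝ := q2 (C.a k) * q2 b * q2 (C.R k b) with hQ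
  have hQ0 : 0 < Q := by positivity
  calc _ = u ^ 7 * Q + u ^ 5 * Q + 2 * u ^ 4 * Q := by rw [hQ]; ring
    _ ≤ u ^ 7 * Q + u ^ 7 * Q + 2 * u ^ 7 * Q := by gcongr
    _ = _ := by ring

end one

/-- **[JU]** given the letter `T i'`, the nominal position of the step `k` has a bounded number of
possibilities inside a cell of the step `k` -/
theorem ju [Fintype Ω] (P : Law Ω) {k b i' : ℕ} (hk : k ≤ i') (hL : C.Lev k b) :
    hc P (C.A k b i') (fun ω => (C.T i' ω, C.cell k b ω)) ≤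
      15 * C.μ * Real.log 2 + Real.log 18865 := by
  classical
  set c6 : Ω → ℤ := fun ω => fl1 (C.R k b) (C.sl k b ω + C.o 4) with hc6
  set M1 : ℕ := 2 * 2 ^ C.μ with hM1
  set M3 : ℕ := 2 * 2 ^ (3 * C.μ) with hM3
  set M4 : ℕ := 2 ^ (3 * C.μ) with hM4
  set M7 : ℕ := 4 * 2 ^ (7 * C.μ) with hM7
  have hcard : ∀ (M : ℕ) (z : ℤ), (Finset.Icc (z - (M + 1)) (z + (M + 1))).card = 2 * M + 3 := by
    intro M z
    rw [Int.card_Icc]
    omega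
  have h1 : hc P c6 (fun ω => (C.T i' ω, C.cell k b ω)) ≤ Real.log ((2 * M4 + 3 : ℕ) : ℝ) := by
    refine hc_le_log P _ _ _ fun ω _ => ⟨Finset.Icc (c6 ω - (M4 + 1)) (c6 ω + (M4 + 1)),
      (hcard M4 _).le, fun ω' _ e => ?_⟩
    have h3 := (Pj_of e).sl_close hL
    have h4 := abs_le.1 (fl1_range h3)
    rw [Finset.mem_Icc]
    simp only [hc6]
    constructor <;> linarith [h4.1, h4.2]
  have h2 : hc P (C.A k b i') (fun ω => (c6 ω, (C.T i' ω, C.cell k b ω))) ≤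
      Real.log (((2 * M1 + 3) * ((2 * M1 + 3) * ((2 * M3 + 3) * (2 * M7 + 3))) : ℕ) : ℝ) := by
    refine hc_le_log P _ _ _ fun ω _ => ⟨
      ((Finset.Icc (fl1 (C.a k + b) ((C.l ω).X (C.s i' ω)) - (M1 + 1))
          (fl1 (C.a k + b) ((C.l ω).X (C.s i' ω)) + (M1 + 1))) ×ˢ
        ((Finset.Icc (fl1 (C.a k + b) ((C.l ω).N (C.s i' ω)) - (M1 + 1))
          (fl1 (C.a k + b) ((C.l ω).N (C.s i' ω)) + (M1 + 1))) ×ˢ
        ((Finset.Icc (fl1 (C.a k + 2 * b) (C.Zs b (C.s i' ω) ω) - (M3 + 1))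
          (fl1 (C.a k + 2 * b) (C.Zs b (C.s i' ω) ω) + (M3 + 1))) ×ˢ
        (Finset.Icc (fl1 (C.a k + b + C.R k b) ((Gs C i' k b ω).g (C.l ω) (C.s i' ω)) - (M7 + 1))
          (fl1 (C.a k + b + C.R k b) ((Gs C i' k b ω).g (C.l ω) (C.s i' ω)) + (M7 + 1)))))).image
      (fun z => (fl1 b (C.l ω).v, fl1 (b - C.μ) ((C.l ω).w + C.o 1), z.1, z.2.1, z.2.2.1, c6 ω,
        z.2.2.2)), ?_, fun ω' _ e => ?_⟩
    · refine Finset.card_image_le.trans ?_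
      rw [Finset.card_product, Finset.card_product, Finset.card_product, hcard, hcard, hcard,
        hcard]
    · simp only [Prod.mk.injEq] at e
      obtain ⟨e6, e1, e2⟩ := e
      have hp : Pj C k b i' ω ω' := Pj_of (Prod.ext e1 e2)
      have hX := abs_le.1 (fl1_range (hp.X_close hL hk))
      have hN := abs_le.1 (fl1_range (hp.N_close hL hk))
      have hZ := abs_le.1 (fl1_range (hp.Z_close hL hk))
      have hG := abs_le.1 (fl1_range (hp.g_close hL hk e6))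
      have hw : fl1 (b - C.μ) ((C.l ω').w + C.o 1) = fl1 (b - C.μ) ((C.l ω).w + C.o 1) :=
        hp.d 1
      rw [Finset.mem_image]
      refine ⟨(fl1 (C.a k + b) ((C.l ω').X (C.s i' ω')), fl1 (C.a k + b) ((C.l ω').N (C.s i' ω')),
        fl1 (C.a k + 2 * b) (C.Zs b (C.s i' ω') ω'),
        fl1 (C.a k + b + C.R k b) ((Gs C i' k b ω').g (C.l ω') (C.s i' ω'))), ?_, ?_⟩
      · simp only [Finset.mem_product, Finset.mem_Icc]
        refine ⟨⟨?_, ?_⟩, ⟨?_, ?_⟩, ⟨?_, ?_⟩, ⟨?_, ?_⟩⟩ <;>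
          linarith [hX.1, hX.2, hN.1, hN.2, hZ.1, hZ.2, hG.1, hG.2]
      · unfold Pth.A
        rw [hp.v, hw]
        simp only [Prod.mk.injEq, true_and]
        exact ⟨e6.symm, rfl⟩
  have h3 := hc_le_add P (C.A k b i') c6 (fun ω => (C.T i' ω, C.cell k b ω))
  have hu : ∀ m : ℕ, 1 ≤ 2 ^ (m * C.μ) := fun m => Nat.one_le_two_pow
  have h4 : Real.log ((2 * M4 + 3 : ℕ) : ℝ) ≤ 3 * C.μ * Real.log 2 + Real.log 5 := by
    have e : (3 : ℝ) * C.μ * Real.log 2 + Real.log 5 = Real.log ((2 : ℝ) ^ (3 * C.μ) * 5) := by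
      rw [Real.log_mul (by positivity) (by norm_num), Real.log_pow]
      push_cast
      ring
    rw [e]
    apply Real.log_le_log (by positivity)
    have := hu 3
    have h5 : 2 * M4 + 3 ≤ 2 ^ (3 * C.μ) * 5 := by rw [hM4]; omega
    exact_mod_cast h5
  have h5 : Real.log (((2 * M1 + 3) * ((2 * M1 + 3) * ((2 * M3 + 3) * (2 * M7 + 3))) : ℕ) : ℝ) ≤
      12 * C.μ * Real.log 2 + Real.log 3773 := by
    have e : (12 : ℝ) * C.μ * Real.log 2 + Real.log 3773 =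
        Real.log ((2 : ℝ) ^ (12 * C.μ) * 3773) := by
      rw [Real.log_mul (by positivity) (by norm_num), Real.log_pow]
      push_cast
      ring
    rw [e]
    apply Real.log_le_log (by positivity)
    have a1 : 2 * M1 + 3 ≤ 7 * 2 ^ C.μ := by
      have := hu 1
      rw [one_mul] at this
      rw [hM1]; omega
    have a3 : 2 * M3 + 3 ≤ 7 * 2 ^ (3 * C.μ) := by
      have := hu 3
      rw [hM3]; omega
    have a7 : 2 * M7 + 3 ≤ 11 * 2 ^ (7 * C.μ) := by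
      have := hu 7
      rw [hM7]; omega
    have h6 : (2 * M1 + 3) * ((2 * M1 + 3) * ((2 * M3 + 3) * (2 * M7 + 3))) ≤
        2 ^ (12 * C.μ) * 3773 := by
      calc _ ≤ (7 * 2 ^ C.μ) * ((7 * 2 ^ C.μ) * ((7 * 2 ^ (3 * C.μ)) * (11 * 2 ^ (7 * C.μ)))) := by
            gcongr
        _ = _ := by
            have : 2 ^ (12 * C.μ) = 2 ^ C.μ * (2 ^ C.μ * (2 ^ (3 * C.μ) * 2 ^ (7 * C.μ))) := by
              rw [← pow_add, ← pow_add, ← pow_add]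
              congr 1
              ring
            rw [this]
            ring
    exact_mod_cast h6
  have h6 : Real.log 18865 = Real.log 5 + Real.log 3773 := by
    rw [← Real.log_mul (by norm_num) (by norm_num)]
    norm_num
  rw [h6]
  linarith

end Vale.Agent.P106.U.H84
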