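import Vale.Agent.P106.U.H480.Bas
import Vale.Agent.P106.U.S3.Props

/-!
# P106 / U : start label of a cell with the full thickness `R i b` (helper84)

* `start_labR` : 480's `start_lab` with the shape `(0, R i b)` instead of `(0, rk i)` (class `3 K²`, independent of the margin `μ`).
* `lab0` : over a run: label of the cell `(i, b)`, shape `(0, R i b)`, price `0` given the cell; `a i ≤ h`, `R i b ≤ q`.
* `hc_Y` : price of the first `n` digits of the direction.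
-/

set_option autoImplicit false

namespace Vale.Agent.P106.U.H84

open Vale.Agent.P127 Vale.Agent.P127.Stk Vale.Agent.P127.U Vale.Agent.P106.W Vale.Agent.P106.K Vale.Agent.P106.U
open Vale.Agent.P106.U.H523 Vale.Agent.P106.U.G480
open Vale.Agent.P122.C2 (fw fn)
open Vale.Agent.P127.U.CellD (q2 rd q2_pos q2_le q2_add)
open Vale.Agent.P106.U.H786 (Close)
open Vale.Agent.P106.U.H786.Adp (toR toF)

variable {Ω τ : Type}

/-- two rays of one cell, thickness `R i b` -/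
theorem cell_closeR (C : Cell.Pth Ω τ) {θ : ℝ} {l : Ω → Ry} (hl : ∀ ω, C.l ω = toR θ (l ω)) {K : ℝ} (hK : 1 ≤ K) {i b : ℕ}
    (hLev : C.Lev i b) {ω ω' : Ω} (n1 : 1 ≤ K * (C.F i ω).cN (C.l ω) (C.s i ω)) (k1 : |(C.F i ω).ka| ≤ K)
    (a1 : |(C.F i ω).al| * q2 (C.a i) ≤ K) (h : C.cell i b ω = C.cell i b ω') :
    Close (3 * K ^ 2) ((1 / 2 : ℝ) ^ C.R i b) ((1 / 2 : ℝ) ^ 0) ((ofF θ (C.s i ω) (C.F i ω)).lev (C.a i) (C.s i ω))
      (bl (C.a i) (l ω') (C.t ω')) (bl (C.a i) (l ω) (C.t ω)) := by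
  obtain ⟨hN, -⟩ := Cell.Pth.Nr_of_cell hLev h
  obtain ⟨hb, hR⟩ := hLev
  have hT : C.T i ω = C.T i ω' := (Cell.Pth.cell_iff.1 h).1
  have s2 : C.s i ω' = C.s i ω := Cell.Pth.s_eq hT
  have q1 : qa (C.a i) (C.t ω) = C.s i ω := rfl
  have q2' : qa (C.a i) (C.t ω') = C.s i ω := by
    rw [← s2]; rfl
  obtain ⟨nv, nw, nX, nN, nz, nc, ng⟩ := hN
  set a := C.a i with ha
  set s := C.s i ω with hs
  set F := C.F i ω with hF
  set G := ofF θ s F with hG
  have hGF : toF θ s G = F := toF_ofF θ s F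
  have p2 : (0 : ℝ) < 2 ^ a := by positivity
  have hK2 : 1 ≤ K ^ 2 := one_le_pow₀ hK
  -- positions
  have eX : ∀ ω1, (C.l ω1).X s = fw θ ((l ω1).pos s) := fun ω1 => by rw [hl, H786.Adp.toR_X]
  have eN : ∀ ω1, (C.l ω1).N s = fn θ ((l ω1).pos s) := fun ω1 => by rw [hl, H786.Adp.toR_N]
  have X1 : 2 ^ a * |(C.l ω').X s - (C.l ω).X s| ≤ 1 := by
    refine (mul_le_mul_of_nonneg_left nX p2.le).trans ((pow_q2_le (m := 0) (by omega)).trans_eq ?_)
    simp [q2]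
  have N1 : 2 ^ a * |(C.l ω').N s - (C.l ω).N s| ≤ 1 := by
    refine (mul_le_mul_of_nonneg_left nN p2.le).trans ((pow_q2_le (m := 0) (by omega)).trans_eq ?_)
    simp [q2]
  have v1 : |(C.l ω').v - (C.l ω).v| ≤ 1 := nv.trans (q2_one _)
  have w1 : |(C.l ω').w - (C.l ω).w| ≤ 1 := nw.trans (q2_one _)
  -- length
  have hlen : 1 / K ≤ G.len (l ω) := by
    have e := H786.Adp.toF_cN θ s G (l ω)
    rw [hGF, ← hl] at e
    have h1 : fn θ (G.cov (l ω)) ^ 2 ≤ G.cov (l ω) 0 ^ 2 + G.cov (l ω) 1 ^ 2 := by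
      have := H786.Adp.norm_sq θ (G.cov (l ω))
      nlinarith [sq_nonneg (fw θ (G.cov (l ω)))]
    have h2 : fn θ (G.cov (l ω)) ≤ G.len (l ω) := by
      unfold H786.Fu.len
      exact (le_abs_self _).trans (Real.abs_le_sqrt h1)
    rw [← e] at h2
    rw [div_le_iff₀ (by linarith)]
    nlinarith
  have hlen' : (G.lev a s).len (bl a (l ω) (C.t ω)) = G.len (l ω) := by
    have := H786.Fu.lev_len G a (l ω) (C.t ω)
    rwa [q1] at this
  have hc1 : 3 * K ≤ 3 * K ^ 2 * G.len (l ω) := by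
    have h1 : 3 * K = 3 * K ^ 2 * (1 / K) := by field_simp
    rw [h1]
    exact mul_le_mul_of_nonneg_left hlen (by positivity)
  refine ⟨fun k => ?_, fun k => ?_, ?_, ?_, ?_, ?_, ?_, ?_⟩
  · have e : (bl a (l ω') (C.t ω')).y k - (bl a (l ω) (C.t ω)).y k =
        2 ^ a * (((l ω').pos s - (l ω).pos s) k) := by
      simp only [bl, q1, q2', Pi.sub_apply]
      ring
    rw [e, abs_mul, abs_of_pos p2]
    have h1 := abs_rot θ ((l ω').pos s - (l ω).pos s) k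
    have e1 : fw θ ((l ω').pos s - (l ω).pos s) = (C.l ω').X s - (C.l ω).X s := by
      rw [eX, eX]; simp only [fw, Pi.sub_apply]; ring
    have e2 : fn θ ((l ω').pos s - (l ω).pos s) = (C.l ω').N s - (C.l ω).N s := by
      rw [eN, eN]; simp only [fn, Pi.sub_apply]; ring
    rw [e1, e2] at h1
    have h2 := mul_le_mul_of_nonneg_left h1 p2.le
    rw [mul_add] at h2
    simp only [pow_zero, mul_one]
    linarith
  · have e : (bl a (l ω') (C.t ω')).s k - (bl a (l ω) (C.t ω)).s k = (((l ω').s - (l ω).s) k) := rfl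
    rw [e]
    have h1 := abs_rot θ ((l ω').s - (l ω).s) k
    have e1 : fw θ ((l ω').s - (l ω).s) = (C.l ω').v - (C.l ω).v := by
      rw [hl, hl]; simp only [toR, fw, Pi.sub_apply]; ring
    have e2 : fn θ ((l ω').s - (l ω).s) = (C.l ω').w - (C.l ω).w := by
      rw [hl, hl]; simp only [toR, fn, Pi.sub_apply]; ring
    rw [e1, e2] at h1
    simp only [pow_zero, mul_one]
    linarith
  · have e := H786.Adp.bl_dz θ a (l ω) (l ω') (C.t ω)
    rw [q1, ← hl, ← hl] at e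
    have e0 : bl a (l ω') (C.t ω') = bl a (l ω') (C.t ω) := by
      unfold bl
      rw [q1, q2']
    rw [e0, e, abs_mul, abs_of_pos p2]
    have h1 : 2 ^ a * |(C.l ω).dz (C.l ω') s| ≤ 3 * 1 := by
      calc 2 ^ a * |(C.l ω).dz (C.l ω') s| ≤ 2 ^ a * (3 * q2 (a + 2 * b - 3 * C.μ)) := mul_le_mul_of_nonneg_left nz p2.le
        _ = 3 * (2 ^ a * q2 (a + 2 * b - 3 * C.μ)) := by ring
        _ ≤ 3 * 1 := by
            refine mul_le_mul_of_nonneg_left ((pow_q2_le (m := 0) (by omega)).trans_eq ?_) (by norm_num)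
            simp [q2]
    simp only [pow_zero, one_pow, mul_one]
    linarith
  · have e := H786.Adp.lev_g θ a G (l ω) (C.t ω)
    have e' := H786.Adp.lev_g θ a G (l ω') (C.t ω')
    rw [q1, hGF, ← hl] at e
    rw [q2', hGF, ← hl] at e'
    rw [e, e', ← mul_sub, abs_mul, abs_of_pos p2, hlen']
    calc 2 ^ a * |F.g (C.l ω') s - F.g (C.l ω) s| ≤ 2 ^ a * (2 * q2 (a + b + C.R i b - 7 * C.μ)) :=
          mul_le_mul_of_nonneg_left ng p2.le
      _ = 2 * (2 ^ a * q2 (a + b + C.R i b - 7 * C.μ)) := by ring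
      _ ≤ 2 * q2 (C.R i b) := mul_le_mul_of_nonneg_left (pow_q2_le (by omega)) (by norm_num)
      _ ≤ 3 * K ^ 2 * G.len (l ω) * (1 / 2 : ℝ) ^ C.R i b := by
          refine mul_le_mul_of_nonneg_right ?_ (q2_pos _).le
          linarith
  · have e := H786.Adp.lev_gd θ a G (l ω) (C.t ω)
    have e' := H786.Adp.lev_gd θ a G (l ω') (C.t ω')
    rw [q1, hGF, ← hl] at e
    rw [q2', hGF, ← hl] at e'
    rw [e, e', hlen']
    calc |F.gd (C.l ω') s - F.gd (C.l ω) s| ≤ 2 * q2 (C.R i b + b - 5 * C.μ) := nc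
      _ ≤ 2 * q2 (C.R i b) := mul_le_mul_of_nonneg_left (q2_le (by omega)) (by norm_num)
      _ ≤ 3 * K ^ 2 * G.len (l ω) * (1 / 2 : ℝ) ^ C.R i b := by
          refine mul_le_mul_of_nonneg_right ?_ (q2_pos _).le
          linarith
  · rw [hlen']
    exact lt_of_lt_of_le (by positivity) hlen
  · rw [hlen']
    have e : |(G.lev a s).α| = |F.al| * q2 a / 2 := by
      simp only [H786.Fu.lev, hG, ofF, q2, abs_div, abs_two, abs_pow, one_div, inv_pow]
      field_simp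
    rw [e, pow_zero, mul_one]
    have := abs_nonneg F.al
    linarith
  · rw [hlen']
    have e : (G.lev a s).κ = -F.ka := by
      simp only [H786.Fu.lev, hG, ofF]
      ring
    rw [e, abs_neg, pow_zero, mul_one]
    linarith

/-- **start label** of the cell: a box which is a function of the cell and a label of level `a i`, shape `(0, R i b)` -/
theorem start_labR [Fintype Ω] (P : Law Ω) (C : Cell.Pth Ω τ) {θ : ℝ} {l : Ω → Ry} (hl : ∀ ω, C.l ω = toR θ (l ω)) {K : ℝ}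
    (hK : 1 ≤ K) {i b : ℕ} (hLev : C.Lev i b)
    (ok : ∀ ω, 0 < P.w ω → 1 ≤ K * (C.F i ω).cN (C.l ω) (C.s i ω) ∧ |(C.F i ω).ka| ≤ K ∧
      |(C.F i ω).al| * q2 (C.a i) ≤ K) {L : ℕ} (hL : C.a i + C.R i b ≤ L) :
    ∃ A : τ × Cell.Pth.Dg → Cbx, ∀ ω, 0 < P.w ω →
      LbOk (3 * K ^ 2) L (C.a i) (A (C.cell i b ω)) (l ω) (C.t ω) ∧ (A (C.cell i b ω)).u2 = 1 ∧
        (A (C.cell i b ω)).u1 = (1 / 2 : ℝ) ^ C.R i b := by
  classical
  have hrep : ∃ r : τ × Cell.Pth.Dg → Ω, ∀ ω, 0 < P.w ω → 0 < P.w (r (C.cell i b ω)) ∧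
      C.cell i b (r (C.cell i b ω)) = C.cell i b ω := by
    have hex : ∃ ω, 0 < P.w ω := by
      by_contra hcon
      push Not at hcon
      have : ∑ ω, P.w ω ≤ 0 := Finset.sum_nonpos fun ω _ => hcon ω
      rw [P.sum_one] at this
      linarith
    obtain ⟨ω0, _⟩ := hex
    refine ⟨fun d => if hd : ∃ ω, 0 < P.w ω ∧ C.cell i b ω = d then hd.choose else ω0, fun ω hω => ?_⟩
    have hd : ∃ ω', 0 < P.w ω' ∧ C.cell i b ω' = C.cell i b ω := ⟨ω, hω, rfl⟩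
    simp only [dif_pos hd]
    exact hd.choose_spec
  obtain ⟨r, hr⟩ := hrep
  refine ⟨fun d => ((ofF θ (C.s i (r d)) (C.F i (r d))).lev (C.a i) (C.s i (r d))).box ((1 / 2 : ℝ) ^ C.R i b)
    ((1 / 2 : ℝ) ^ 0) (bl (C.a i) (l (r d)) (C.t (r d))), fun ω hω => ?_⟩
  obtain ⟨r1, r2⟩ := hr ω hω
  obtain ⟨o1, o2, o3⟩ := ok _ r1
  obtain ⟨b1, b2, b3⟩ := (cell_closeR C hl hK hLev o1 o2 o3 r2).bin
  exact ⟨⟨⟨0, C.R i b, rfl, rfl, Nat.zero_le _, hL⟩, b1, b2, b3⟩, pow_zero _, rfl⟩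

/-- a function of the cell has price `0` given the cell -/
theorem hc_lab [Fintype Ω] (P : Law Ω) (C : Cell.Pth Ω τ) {t : Ω → ℝ} (ht : ∀ ω, C.t ω = t ω) (i b : ℕ)
    (A : τ × Cell.Pth.Dg → Cbx) :
    Stk.hc P (fun ω => (A (C.cell i b ω), fl1 (C.a i) (t ω), ())) (C.cell i b) = 0 := by
  have ht' : C.t = t := funext ht
  refine Stk.hc_zero P fun ω ω' _ _ e => ?_
  have hT : C.T i ω = C.T i ω' := (Cell.Pth.cell_iff.1 e).1
  have e2 : fl1 (C.a i) (t ω) = fl1 (C.a i) (t ω') := by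
    have h1 := C.htm i ω
    have h2 := C.htm i ω'
    rw [ht'] at h1 h2
    rw [← h1, ← h2, hT]
  simp only [e, e2]

/-- **[LAB0]** start label over a run -/
theorem lab0 [Fintype Ω] {υ : Type} (R : S3.Run Ω τ υ) {p : S3.Run.Num} {K c' g' gU : ℝ} (hK : 1 ≤ K)
    (hok : R.Ok p K c' g' gU) (hL : R.h + R.q ≤ R.L) {i b : ℕ} (hi : i ≤ R.n + p.J) (hLev : R.C.Lev i b) :
    R.C.a i ≤ R.h ∧ R.C.R i b ≤ R.q ∧ ∃ A : Ω → Cbx,
      (∀ ω, 0 < R.Q.w ω → LbOk (3 * K ^ 2) R.L (R.C.a i) (A ω) (R.ry ω) (R.t ω) ∧ (A ω).u2 = 1 ∧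
        (A ω).u1 = (1 / 2 : ℝ) ^ R.C.R i b) ∧
      Stk.hc R.Q (fun ω => (A ω, fl1 (R.C.a i) (R.t ω), ())) (R.C.cell i b) = 0 := by
  have ha : R.C.a i ≤ R.h := (R.C.ha hi).trans hok.pth.rA
  have hr : R.C.R i b ≤ R.q := by
    have h1 := hok.pth.leF i hi
    have h2 := hok.pth.rF
    have h3 := R.C.hkf i
    have h4 : R.C.R i b ≤ R.C.rf i := by
      unfold Cell.Pth.R Cell.Pth.bs
      omega
    omega
  obtain ⟨A, hA⟩ := start_labR R.Q R.C (θ := R.θ) (l := R.ry) hok.Cl hK hLev (fun ω hω => by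
    have o := hok.ok ω hω
    exact ⟨o.n1 i, o.k1 i, o.a1 i⟩) (L := R.L) (by omega)
  refine ⟨ha, hr, fun ω => A (R.C.cell i b ω), fun ω hω => ?_, hc_lab R.Q R.C hok.Ct i b A⟩
  have h := hA ω hω
  rw [hok.Ct ω] at h
  exact h

/-- price of the first `n` digits of a number in `[-1, 1]` -/
theorem hc_Y [Fintype Ω] {δ : Type} (P : Law Ω) (v : Ω → ℝ) (hv : ∀ ω, 0 < P.w ω → |v ω| ≤ 1) (n : ℕ) (Z : Ω → δ) :
    Stk.hc P (fun ω => fl1 n (v ω)) Z ≤ (n + 2) * Real.log 2 := by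
  classical
  have h1 : Stk.hc P (fun ω => fl1 n (v ω)) Z ≤ Real.log ((2 ^ (n + 2) : ℕ) : ℝ) := by
    refine Stk.hc_le_log P _ _ _ fun ω _ => ⟨Finset.Icc (-(2 ^ n : ℤ)) (2 ^ n), ?_, fun ω' hω' _ => ?_⟩
    · rw [Int.card_Icc]
      have h2 : (1 : ℤ) ≤ 2 ^ n := one_le_pow₀ (by norm_num)
      have h3 : (2 ^ n + 1 - -(2 ^ n : ℤ)).toNat = 2 ^ n + 1 + 2 ^ n := by
        have : (2 ^ n + 1 - -(2 ^ n : ℤ)) = ((2 ^ n + 1 + 2 ^ n : ℕ) : ℤ) := by push_cast; ring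
        rw [this, Int.toNat_natCast]
      rw [h3, pow_succ, pow_succ]
      have h4 : 1 ≤ 2 ^ n := Nat.one_le_two_pow
      omega
    · have h2 := abs_le.1 (hv ω' hω')
      have hp : (0 : ℝ) < 2 ^ n := by positivity
      rw [Finset.mem_Icc]
      unfold fl1
      constructor
      · rw [Int.le_floor]
        push_cast
        nlinarith
      · have h3 : (⌊(2 : ℝ) ^ n * v ω'⌋ : ℝ) ≤ 2 ^ n := (Int.floor_le _).trans (by nlinarith)
        exact_mod_cast h3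
  refine h1.trans (le_of_eq ?_)
  push_cast
  rw [Real.log_pow]
  push_cast
  ring

end Vale.Agent.P106.U.H84
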